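import Vale.Agent.P344.Defs

open Finset

namespace Vale.Agent.P344

set_option linter.unusedSectionVars false

variable {M : Type} [AddCommGroup M] [Module ℂ M]

def Der (S : Set M) (g : M) : Prop :=
  ∃ u ∈ insert 0 S, ∃ v ∈ insert 0 S, g = u + v ∨ g = u - v ∨ ∃ c : ℂ, g = c • u

inductive CompN : Set M → ℕ → Set M → Prop
  | base {S T : Set M} (h : T ⊆ insert 0 S) : CompN S 0 T
  | step {S T : Set M} {n : ℕ} (g : M) (hg : Der S g) (h : CompN (insert g S) n T) : CompN S (n + 1) T

lemma Der.mono {S S' : Set M} {g : M} (h : Der S g) (hS : S ⊆ insert 0 S') : Der S' g := by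
  obtain ⟨u, hu, v, hv, h⟩ := h
  have : insert 0 S ⊆ insert 0 S' := Set.insert_subset (Set.mem_insert _ _) hS
  exact ⟨u, this hu, v, this hv, h⟩

lemma CompN.mono_left {S T : Set M} {n : ℕ} (h : CompN S n T) :
    ∀ {S' : Set M}, S ⊆ insert 0 S' → CompN S' n T := by
  induction h with
  | base h => intro S' hS; exact .base (h.trans (Set.insert_subset (Set.mem_insert _ _) hS))
  | step g hg _ ih =>
    intro S' hS
    refine .step g (hg.mono hS) (ih ?_)
    apply Set.insert_subset (by simp)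
    exact hS.trans (Set.insert_subset_insert (Set.subset_insert _ _))

lemma CompN.mono_right {S T : Set M} {n : ℕ} (h : CompN S n T) :
    ∀ {T' : Set M}, T' ⊆ insert 0 (S ∪ T) → CompN S n T' := by
  induction h with
  | base h =>
    intro T' hT
    refine .base (hT.trans (Set.insert_subset (Set.mem_insert _ _) ?_))
    exact Set.union_subset (Set.subset_insert _ _) h
  | step g hg _ ih =>
    intro T' hT
    refine .step g hg (ih (hT.trans (Set.insert_subset_insert ?_)))
    exact Set.union_subset_union_left _ (Set.subset_insert _ _)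

lemma CompN.trans {S T U : Set M} {n m : ℕ} (h : CompN S n T) (h' : CompN T m U) :
    CompN S (m + n) U := by
  induction h with
  | base h => exact h'.mono_left h
  | step g hg _ ih => exact .step g hg (ih h')

/-- real-valued cost version; the target keeps the source -/
def Ext (S : Set M) (c : ℝ) (T : Set M) : Prop := S ⊆ T ∧ 0 ∈ T ∧ ∃ n : ℕ, (n : ℝ) ≤ c ∧ CompN S n T

lemma Ext.sub {S T : Set M} {c : ℝ} (h : Ext S c T) : S ⊆ T := h.1

lemma Ext.nonneg {S T : Set M} {c : ℝ} (h : Ext S c T) : 0 ≤ c := by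
  obtain ⟨-, -, n, hn, -⟩ := h
  exact le_trans (Nat.cast_nonneg n) hn

lemma Ext.trans {S T U : Set M} {c d : ℝ} (h : Ext S c T) (h' : Ext T d U) : Ext S (c + d) U := by
  obtain ⟨a1, a2, n, hn, h⟩ := h
  obtain ⟨b1, b2, m, hm, h'⟩ := h'
  exact ⟨a1.trans b1, b2, m + n, by push_cast; linarith, h.trans h'⟩

lemma Ext.mono {S T : Set M} {c d : ℝ} (h : Ext S c T) (hc : c ≤ d) : Ext S d T := by
  obtain ⟨a1, a2, n, hn, h⟩ := h
  exact ⟨a1, a2, n, hn.trans hc, h⟩

lemma Ext.refl (S : Set M) : Ext S 0 (insert 0 S) :=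
  ⟨Set.subset_insert _ _, Set.mem_insert _ _, 0, by simp, .base subset_rfl⟩

/-- `Can S c P`: with `c` gates one reaches a set of values with property `P` -/
def Can (S : Set M) (c : ℝ) (P : Set M → Prop) : Prop := ∃ T, Ext S c T ∧ P T

lemma Can.mono {S : Set M} {c d : ℝ} {P Q : Set M → Prop} (h : Can S c P) (hc : c ≤ d)
    (hP : ∀ T, S ⊆ T → 0 ∈ T → P T → Q T) : Can S d Q := by
  obtain ⟨T, h1, h2⟩ := h
  exact ⟨T, h1.mono hc, hP T h1.1 h1.2.1 h2⟩

lemma Can.cost {S : Set M} {c d : ℝ} {P : Set M → Prop} (h : Can S c P) (hc : c ≤ d) : Can S d P :=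
  h.mono hc fun _ _ _ h => h

lemma Can.seq {S : Set M} {c d : ℝ} {P Q : Set M → Prop} (h : Can S c P)
    (h' : ∀ T, S ⊆ T → P T → Can T d Q) : Can S (c + d) Q := by
  obtain ⟨T, h1, h2⟩ := h
  obtain ⟨U, h3, h4⟩ := h' T h1.1 h2
  exact ⟨U, h1.trans h3, h4⟩

lemma Can.zero {S : Set M} {P : Set M → Prop} (h : ∀ T, S ⊆ T → 0 ∈ T → P T) : Can S 0 P :=
  ⟨_, Ext.refl S, h _ (Set.subset_insert _ _) (Set.mem_insert _ _)⟩

lemma Can.family {J : Type} (s : Finset J) {S : Set M} {c : J → ℝ} {P : J → Set M → Prop}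
    (hP : ∀ j T U, T ⊆ U → P j T → P j U)
    (h : ∀ j ∈ s, ∀ T, S ⊆ T → Can T (c j) (P j)) :
    Can S (∑ j ∈ s, c j) (fun T => ∀ j ∈ s, P j T) := by
  classical
  induction s using Finset.induction_on with
  | empty => simpa using Can.zero (by simp)
  | insert a s ha ih =>
    rw [sum_insert ha, add_comm]
    refine (ih fun j hj => h j (mem_insert_of_mem hj)).seq fun T hT hs => ?_
    refine (h a (mem_insert_self _ _) T hT).mono le_rfl fun U hU _ hU' j hj => ?_
    rcases mem_insert.1 hj with rfl | hj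
    · exact hU'
    · exact hP j T U hU (hs j hj)

lemma Can.forall {J : Type} [Fintype J] {S : Set M} {c : ℝ} {P : J → Set M → Prop}
    (hP : ∀ j T U, T ⊆ U → P j T → P j U)
    (h : ∀ j, ∀ T, S ⊆ T → Can T c (P j)) :
    Can S (Fintype.card J * c) (fun T => ∀ j, P j T) := by
  have := Can.family (univ : Finset J) (c := fun _ => c) hP (fun j _ => h j)
  simp only [sum_const, card_univ, nsmul_eq_mul] at this
  exact this.mono le_rfl fun T _ _ h j => h j (mem_univ j)

lemma Can.gate {S : Set M} {g : M} (hg : Der S g) : Can S 1 (fun T => g ∈ T) :=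
  ⟨insert 0 (insert g S), ⟨fun _ hx => Or.inr (Or.inr hx), Set.mem_insert _ _, 1, by simp,
    .step g hg (.base subset_rfl)⟩, by simp⟩

lemma Can.smul {S : Set M} {u : M} (hu : u ∈ S) (c : ℂ) : Can S 1 (fun T => c • u ∈ T) :=
  Can.gate ⟨u, Or.inr hu, u, Or.inr hu, Or.inr (Or.inr ⟨c, rfl⟩)⟩

lemma Can.add {S : Set M} {u v : M} (hu : u ∈ S) (hv : v ∈ S) : Can S 1 (fun T => u + v ∈ T) :=
  Can.gate ⟨u, Or.inr hu, v, Or.inr hv, Or.inl rfl⟩

lemma Can.sum {J : Type} (s : Finset J) {S : Set M} (c : J → ℂ) (a : J → M)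
    (h : ∀ j ∈ s, c j ≠ 0 → a j ∈ S) : Can S (2 * s.card) (fun T => ∑ j ∈ s, c j • a j ∈ T) := by
  classical
  induction s using Finset.induction_on with
  | empty => simpa using Can.zero (by simp)
  | insert b s hb ih =>
    rw [sum_insert hb, card_insert_of_notMem hb]
    have ih' := ih fun j hj => h j (mem_insert_of_mem hj)
    by_cases hc : c b = 0
    · refine ih'.mono (by push_cast; linarith) fun T _ _ hT => ?_
      simpa [hc] using hT
    · refine (ih'.seq (d := 1 + 1) fun T hT h1 => ?_).cost (by push_cast; linarith)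
      refine (Can.smul (hT (h b (mem_insert_self _ _) hc)) (c b)).seq fun U hU h2 => ?_
      exact Can.add h2 (hU h1)

/-- apply a matrix to a family of values -/
noncomputable def app {ι κ : Type} [Fintype κ] (A : Matrix ι κ ℂ) (x : κ → M) : ι → M :=
  fun i => ∑ k, A i k • x k

lemma app_mul {ι κ μ : Type} [Fintype κ] [Fintype μ] (A : Matrix ι κ ℂ) (B : Matrix κ μ ℂ)
    (x : μ → M) : app (A * B) x = app A (app B x) := by
  funext i
  simp only [app, Matrix.mul_apply, sum_smul, smul_sum, mul_smul]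
  exact sum_comm

lemma app_one {ι : Type} [Fintype ι] [DecidableEq ι] (x : ι → M) : app (1 : Matrix ι ι ℂ) x = x := by
  funext i
  simp [app, Matrix.one_apply]

lemma app_sum {ι κ J : Type} [Fintype κ] (A : Matrix ι κ ℂ) (s : Finset J) (c : J → ℂ)
    (x : J → κ → M) : app A (∑ j ∈ s, c j • x j) = ∑ j ∈ s, c j • app A (x j) := by
  funext i
  simp only [app, Finset.sum_apply, Pi.smul_apply, smul_sum]
  rw [sum_comm]
  exact sum_congr rfl fun j _ => sum_congr rfl fun k _ => smul_comm _ _ _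

/-- all entries available -/
def In {ι : Type} (x : ι → M) (S : Set M) : Prop := ∀ i, x i ∈ S

lemma In.mono {ι : Type} {x : ι → M} {S T : Set M} (h : In x S) (hS : S ⊆ T) : In x T :=
  fun i => hS (h i)

variable (M) in
def Cost {ι κ : Type} [Fintype κ] (A : Matrix ι κ ℂ) (c : ℝ) : Prop :=
  ∀ (x : κ → M) (S : Set M), In x S → Can S c (In (app A x))

lemma Cost.mono {ι κ : Type} [Fintype κ] {A : Matrix ι κ ℂ} {c d : ℝ} (h : Cost M A c)
    (hc : c ≤ d) : Cost M A d := fun x S hx => (h x S hx).cost hc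

lemma Cost.mul {ι κ μ : Type} [Fintype κ] [Fintype μ] {A : Matrix ι κ ℂ} {B : Matrix κ μ ℂ}
    {c d : ℝ} (hA : Cost M A c) (hB : Cost M B d) : Cost M (A * B) (d + c) := by
  intro x S hx
  rw [app_mul]
  exact (hB x S hx).seq fun T _ hT => hA _ T hT

lemma Cost.one {ι : Type} [Fintype ι] [DecidableEq ι] : Cost M (1 : Matrix ι ι ℂ) 0 := by
  intro x S hx
  rw [app_one]
  exact Can.zero fun T hT _ => hx.mono hT

lemma Can.arr_sum {ι J : Type} [Fintype ι] (s : Finset J) {S : Set M} (c : J → ℂ) (a : J → ι → M)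
    (h : ∀ j ∈ s, c j ≠ 0 → In (a j) S) :
    Can S (Fintype.card ι * (2 * s.card)) (In (∑ j ∈ s, c j • a j)) := by
  refine (Can.forall (P := fun i T => ∑ j ∈ s, c j • a j i ∈ T) (fun i T U hTU h => hTU h)
    fun i T hT => Can.sum s c (fun j => a j i) fun j hj hc => hT (h j hj hc i)).mono le_rfl ?_
  intro T _ _ h i
  simpa [Finset.sum_apply] using h i

lemma Can.arr_smul {ι : Type} [Fintype ι] {S : Set M} (c : ι → ℂ) (a : ι → M) (h : In a S) :
    Can S (Fintype.card ι) (In fun i => c i • a i) := by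
  have := Can.forall (S := S) (P := fun i T => c i • a i ∈ T) (fun i T U hTU h => hTU h)
    fun i T hT => Can.smul (hT (h i)) (c i)
  rw [mul_one] at this
  exact this

lemma compN_to_gates {X : Type} {S T : Set (X → ℂ)} {m : ℕ} (h : CompN S m T) :
    ∀ vals : List (X → ℂ), (∀ s ∈ insert 0 S, s ∈ vals) →
      ∃ gs : List Gate, gs.length = m ∧ ∀ t ∈ T, ∃ idx : ℕ, ∀ x,
        (run (vals.map (· x)) gs).getD idx 0 = t x := by
  have key : ∀ (vals : List (X → ℂ)) (s : X → ℂ), s ∈ vals →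
      ∃ idx : ℕ, ∀ x, (vals.map (· x)).getD idx 0 = s x := by
    intro vals s hs
    obtain ⟨i, hi, rfl⟩ := List.mem_iff_getElem.1 hs
    exact ⟨i, fun x => by simp [List.getD, hi]⟩
  induction h with
  | base h =>
    intro vals hv
    exact ⟨[], rfl, fun t ht => key vals t (hv t (h ht))⟩
  | step g hg _ ih =>
    intro vals hv
    obtain ⟨gs, hl, hgs⟩ := ih (vals ++ [g]) (by
      intro s hs
      rcases hs with rfl | rfl | hs
      · exact List.mem_append_left _ (hv _ (Or.inl rfl))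
      · simp
      · exact List.mem_append_left _ (hv _ (Or.inr hs)))
    obtain ⟨u, hu, v, hv', hg⟩ := hg
    obtain ⟨iu, hiu⟩ := key vals u (hv u hu)
    obtain ⟨iv, hiv⟩ := key vals v (hv v hv')
    have : ∃ G : Gate, ∀ x, G.value (vals.map (· x)) = g x := by
      rcases hg with rfl | rfl | ⟨c, rfl⟩
      · exact ⟨.add iu iv, fun x => by simp only [Gate.value, hiu, hiv, Pi.add_apply]⟩
      · exact ⟨.sub iu iv, fun x => by simp only [Gate.value, hiu, hiv, Pi.sub_apply]⟩
      · exact ⟨.smul c iu, fun x => by simp only [Gate.value, hiu, Pi.smul_apply, smul_eq_mul]⟩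
    obtain ⟨G, hG⟩ := this
    refine ⟨G :: gs, by simp [hl], fun t ht => ?_⟩
    obtain ⟨idx, hidx⟩ := hgs t ht
    refine ⟨idx, fun x => ?_⟩
    rw [← hidx x]
    simp only [run, hG, List.map_append, List.map_cons, List.map_nil]

noncomputable def dftM (n : ℕ) : Matrix (Fin n) (Fin n) ℂ :=
  fun j k => Complex.exp (2 * Real.pi * Complex.I / n) ^ (j.val * k.val)

lemma dftCost_le {n : ℕ} {c : ℝ} (h : Cost ((Fin n → ℂ) → ℂ) (dftM n) c) : (dftCost n : ℝ) ≤ c := by
  obtain ⟨T, ⟨-, -, m, hm, hc⟩, hT⟩ := h (fun k x => x k) (Set.range fun k x => x k)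
    (fun k => ⟨k, rfl⟩)
  obtain ⟨gs, hl, hgs⟩ := compN_to_gates hc (0 :: List.ofFn fun k x => x k) (by
    rintro s (rfl | ⟨k, rfl⟩)
    · simp
    · simp only [List.mem_cons, List.mem_ofFn]
      exact Or.inr ⟨k, rfl⟩)
  choose out hout using fun j => hgs _ (hT j)
  refine le_trans ?_ hm
  refine Nat.cast_le.2 (Nat.sInf_le ⟨gs, out, hl, fun x j => ?_⟩)
  have := hout j x
  simp only [List.map_cons, List.map_ofFn, Pi.zero_apply] at this
  have e : ((fun f : (Fin n → ℂ) → ℂ => f x) ∘ fun k x => x k) = x := rfl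
  rw [e] at this
  rw [this]
  simp [app, dftM, Finset.sum_apply]

end Vale.Agent.P344
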