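import Vale.Agent.P344.Lay

open Finset

namespace Vale.Agent.P344

set_option linter.unusedSectionVars false

variable {M : Type} [AddCommGroup M] [Module ℂ M]

structure IsDual {G : Type} [AddCommGroup G] [Fintype G] (B : Matrix G G ℂ) : Prop where
  add : ∀ ξ g g', B ξ (g + g') = B ξ g * B ξ g'
  symm : ∀ ξ g, B ξ g = B g ξ
  orth : ∀ g, g ≠ 0 → ∑ ξ, B ξ g = 0
  zero : ∀ ξ, B ξ 0 = 1

section
variable {G : Type} [AddCommGroup G] [Fintype G] {B : Matrix G G ℂ}

lemma card_ne : (Fintype.card G : ℂ) ≠ 0 := by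
  have : 0 < Fintype.card G := Fintype.card_pos
  exact_mod_cast this.ne'

/-- inversion formula -/
lemma IsDual.inv (h : IsDual B) (x : G → M) (g : G) :
    (Fintype.card G : ℂ)⁻¹ • app B (app B x) (-g) = x g := by
  classical
  simp only [app, smul_sum, ← mul_smul]
  rw [sum_comm]
  simp only [← sum_smul, ← mul_sum]
  rw [sum_eq_single g]
  · have : ∀ ξ, B (-g) ξ * B ξ g = 1 := fun ξ => by
      rw [h.symm (-g), ← h.add, neg_add_cancel, h.zero]
    simp only [this, sum_const, card_univ, nsmul_eq_mul, mul_one]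
    rw [inv_mul_cancel₀ card_ne, one_smul]
  · intro g' _ hg
    have : ∀ ξ, B (-g) ξ * B ξ g' = B ξ (-g + g') := fun ξ => by rw [h.symm (-g), ← h.add]
    simp only [this]
    rw [h.orth _ (fun h0 => hg (by rw [neg_add_eq_zero] at h0; exact h0.symm))]; simp
  · simp

lemma IsDual.app_neg (h : IsDual B) (x : G → M) (ξ : G) :
    app B (fun g => x (-g)) ξ = app B x (-ξ) := by
  simp only [app]
  rw [← Equiv.sum_comp (Equiv.neg G)]
  refine sum_congr rfl fun g _ => ?_
  simp only [Equiv.neg_apply, neg_neg]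
  congr 1
  have h1 : B ξ (-g) * B ξ g = 1 := by rw [← h.add, neg_add_cancel, h.zero]
  have h2 : B (-ξ) g * B ξ g = 1 := by rw [h.symm (-ξ), h.symm ξ, ← h.add, neg_add_cancel, h.zero]
  have h3 : B ξ g ≠ 0 := right_ne_zero_of_mul_eq_one h1
  exact mul_right_cancel₀ h3 (h1.trans h2.symm)

/-- the multiplier operator -/
noncomputable def Kop (B : Matrix G G ℂ) (d : G → ℂ) (x : G → M) : G → M :=
  fun g => (Fintype.card G : ℂ)⁻¹ • app B (fun ξ => d ξ • app B x ξ) (-g)

lemma app_smul' {ι κ : Type} [Fintype κ] (A : Matrix ι κ ℂ) (c : ℂ) (x : κ → M) (i : ι) :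
    app A (fun k => c • x k) i = c • app A x i := by
  simp only [app, smul_sum]
  exact sum_congr rfl fun k _ => smul_comm _ _ _

lemma app_add' {ι κ : Type} [Fintype κ] (A : Matrix ι κ ℂ) (x y : κ → M) (i : ι) :
    app A (fun k => x k + y k) i = app A x i + app A y i := by
  simp [app, sum_add_distrib]

lemma IsDual.app_Kop (h : IsDual B) (d : G → ℂ) (x : G → M) (ξ : G) :
    app B (Kop B d x) ξ = d ξ • app B x ξ := by
  unfold Kop
  rw [app_smul', h.app_neg (app B fun ξ => d ξ • app B x ξ), h.inv]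

lemma IsDual.Kop_Kop (h : IsDual B) (d d' : G → ℂ) (hd : ∀ ξ, d' ξ * d ξ = 1) (x : G → M) :
    Kop B d' (Kop B d x) = x := by
  funext g
  conv_lhs => rw [Kop]
  simp only [h.app_Kop, ← mul_smul, hd, one_smul]
  exact h.inv x g

lemma Kop_add (d : G → ℂ) (x y : G → M) (g : G) :
    Kop B d (fun g => x g + y g) g = Kop B d x g + Kop B d y g := by
  simp only [Kop, app_add', smul_add]

lemma IsDual.Kop_conv (h : IsDual B) (κ : G → ℂ) (c : ℂ) (x : G → M) (g : G) :
    Kop B (fun ξ => ∑ u, κ u * B ξ u + c) x g = ∑ g', κ (g - g') • x g' + c • x g := by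
  have : (fun ξ => (∑ u, κ u * B ξ u + c) • app B x ξ) =
      app B (fun g => ∑ g', κ (g - g') • x g' + c • x g) := by
    funext ξ
    rw [app_add', app_smul', add_smul]
    congr 1
    simp only [app, smul_sum, ← mul_smul]
    conv_rhs => rw [sum_comm]
    refine sum_congr rfl fun g' _ => ?_
    rw [← sum_smul, sum_mul, ← Equiv.sum_comp (Equiv.subRight g')]
    congr 1
    refine sum_congr rfl fun u _ => ?_
    simp only [Equiv.subRight_apply]
    rw [mul_assoc, ← h.add, sub_add_cancel, mul_comm]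
  rw [Kop, this, h.inv]

end

noncomputable def om (n : ℕ) : ℂ := Complex.exp (2 * Real.pi * Complex.I / n)

noncomputable def FZ (n : ℕ) : Matrix (ZMod n) (ZMod n) ℂ := fun a b => om n ^ (a.val * b.val)

lemma FZ_eq (n : ℕ) [NeZero n] (a b : ZMod n) : FZ n a b = ZMod.stdAddChar (a * b) := by
  have : a * b = ((a.val * b.val : ℕ) : ℤ) := by simp
  rw [this, ZMod.stdAddChar_coe, FZ, om, ← Complex.exp_nat_mul]
  congr 1; push_cast; ring

lemma isDual_FZ (n : ℕ) [NeZero n] : IsDual (FZ n) where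
  add ξ g g' := by simp only [FZ_eq, mul_add, AddChar.map_add_eq_mul]
  symm ξ g := by simp only [FZ_eq, mul_comm]
  orth g hg := by
    simp only [FZ_eq]
    rw [AddChar.sum_mulShift g (ZMod.isPrimitive_stdAddChar n), if_neg hg]; simp
  zero ξ := by simp [FZ_eq]

lemma isDual_tens {J : Type} [Fintype J] [DecidableEq J] {G : J → Type} [∀ j, AddCommGroup (G j)]
    [∀ j, Fintype (G j)] {B : ∀ j, Matrix (G j) (G j) ℂ} (h : ∀ j, IsDual (B j)) :
    IsDual (tens B) where
  add ξ g g' := by simp only [tens, Pi.add_apply, (h _).add, prod_mul_distrib]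
  symm ξ g := by simp only [tens]; exact prod_congr rfl fun j _ => (h j).symm _ _
  orth g hg := by
    simp only [tens]
    rw [← Fintype.piFinset_univ, ← Finset.prod_univ_sum (fun _ => univ) (fun j b => B j b (g j))]
    obtain ⟨j, hj⟩ := Function.ne_iff.1 hg
    exact prod_eq_zero (mem_univ j) ((h j).orth _ hj)
  zero ξ := by simp [tens, (h _).zero]

noncomputable def kron {ι κ : Type} (A : Matrix ι ι ℂ) (B : Matrix κ κ ℂ) :
    Matrix (ι × κ) (ι × κ) ℂ := fun p p' => A p.1 p'.1 * B p.2 p'.2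

lemma isDual_kron {G H : Type} [AddCommGroup G] [Fintype G] [AddCommGroup H] [Fintype H]
    {A : Matrix G G ℂ} {B : Matrix H H ℂ} (hA : IsDual A) (hB : IsDual B) : IsDual (kron A B) where
  add ξ g g' := by simp only [kron, Prod.fst_add, Prod.snd_add, hA.add, hB.add]; ring
  symm ξ g := by simp only [kron]; rw [hA.symm, hB.symm]
  orth g hg := by
    simp only [kron]
    rw [Fintype.sum_prod_type]
    simp only []
    rw [← sum_mul_sum univ univ (fun x => A x g.1) (fun y => B y g.2)]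
    by_cases h : g.1 = 0
    · rw [hB.orth g.2 (fun h2 => hg (Prod.ext h h2)), mul_zero]
    · rw [hA.orth _ h, zero_mul]
  zero ξ := by simp [kron, hA.zero, hB.zero]

noncomputable def psi (n : ℕ) (j : ℤ) : ℂ := Complex.exp (Real.pi * Complex.I * j ^ 2 / n)

lemma psi_ne (n : ℕ) (j : ℤ) : psi n j ≠ 0 := Complex.exp_ne_zero _

noncomputable def kap (n N : ℕ) (u : ZMod N) : ℂ := (psi n u.valMinAbs)⁻¹

lemma bluestein {n N : ℕ} [NeZero N] (h : 2 * n ≤ N) {j k : ℕ} (hj : j < n) (hk : k < n) :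
    om n ^ (j * k) = psi n j * (kap n N ((j : ZMod N) - (k : ZMod N)) * psi n k) := by
  have : ((j : ZMod N) - (k : ZMod N)).valMinAbs = (j : ℤ) - k := by
    rw [ZMod.valMinAbs_spec]
    refine ⟨by push_cast; rfl, ?_, ?_⟩ <;> omega
  rw [kap, this, om, psi, psi, psi, ← Complex.exp_neg, ← Complex.exp_add, ← Complex.exp_add,
    ← Complex.exp_nat_mul]
  congr 1; push_cast; ring

lemma fftZ (a : ℕ) : LayF (3 * a) (app (FZ (2 ^ a))) := by
  have h := (fft a _ (Complex.isPrimitiveRoot_exp (2 ^ a) (by positivity))).equiv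
    (ZMod.finEquiv (2 ^ a)).toEquiv
  refine h.of_eq rfl fun x i => ?_
  obtain ⟨j, rfl⟩ := (ZMod.finEquiv (2 ^ a)).toEquiv.surjective i
  have hv : ∀ (n : ℕ) [NeZero n] (k : Fin n), ((ZMod.finEquiv n).toEquiv k).val = k.val := by
    intro n _ k
    rcases n with _ | n
    · exact absurd rfl (NeZero.ne 0)
    · rfl
  rw [Equiv.symm_apply_apply, app, ← (ZMod.finEquiv (2 ^ a)).toEquiv.sum_comp]
  simp only [FZ, hv, om, smul_eq_mul]

lemma layF_Kop (a : ℕ) (d : ZMod (2 ^ a) → ℂ) : LayF (6 * a + 2) (Kop (FZ (2 ^ a)) d) :=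
  ((((fftZ a).comp (LayF.mon d (fun i => i))).comp (fftZ a)).comp
    (LayF.mon (fun _ => (Fintype.card (ZMod (2 ^ a)) : ℂ)⁻¹) (fun i => -i))).of_eq (by ring)
    fun _ _ => rfl

end Vale.Agent.P344
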