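import Mathlib

namespace Vale.Agent.P344

/-- A gate refers to earlier values by their positions in the list of values. -/
inductive Gate where
  | add (u v : ℕ)
  | sub (u v : ℕ)
  | smul (c : ℂ) (u : ℕ)

/-- The value of a gate; a position outside the list reads the constant zero. -/
noncomputable def Gate.value (vals : List ℂ) : Gate → ℂ
  | Gate.add u v => vals.getD u 0 + vals.getD v 0
  | Gate.sub u v => vals.getD u 0 - vals.getD v 0
  | Gate.smul c u => c * vals.getD u 0

/-- Run the gates in order; each one appends its value to the list. -/
noncomputable def run (vals : List ℂ) : List Gate → List ℂ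
  | [] => vals
  | g :: gs => run (vals ++ [g.value vals]) gs

/-- The circuit, started on the constant zero and the inputs, has the Fourier transform of the
input at the designated output positions, for every input. -/
def ComputesDFT (n : ℕ) (gs : List Gate) (out : Fin n → ℕ) : Prop :=
  ∀ (x : Fin n → ℂ) (j : Fin n), (run (0 :: List.ofFn x) gs).getD (out j) 0 =
    ∑ k : Fin n, Complex.exp (2 * Real.pi * Complex.I / n) ^ (j.val * k.val) * x k

/-- The least number of gates of a linear circuit for the Fourier matrix of order `n`. -/
noncomputable def dftCost (n : ℕ) : ℕ :=
  sInf {m : ℕ | ∃ (gs : List Gate) (out : Fin n → ℕ), gs.length = m ∧ ComputesDFT n gs out}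

end Vale.Agent.P344
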