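import Vale.Agent.P344.Tens

open Finset

namespace Vale.Agent.P344

set_option linter.unusedSectionVars false

variable {M : Type} [AddCommGroup M] [Module ℂ M]
variable {N : Type} [Fintype N] [DecidableEq N]

def ell (z : N → ZMod 2) : (N → ZMod 2) → ZMod 4 := fun ξ => ((z ⬝ᵥ ξ).val : ZMod 4)

noncomputable def e4 (a : ZMod 4) : ℂ := Complex.I ^ a.val
noncomputable def chi (b : ZMod 2) : ℂ := (-1) ^ b.val

lemma e4_add (a b : ZMod 4) : e4 (a + b) = e4 a * e4 b := by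
  unfold e4
  rw [ZMod.val_add, ← pow_add, ← pow_eq_pow_mod _ Complex.I_pow_four]

lemma chi_add (a b : ZMod 2) : chi (a + b) = chi a * chi b := by
  unfold chi
  rw [ZMod.val_add, ← pow_add, ← pow_eq_pow_mod _ (by norm_num)]

lemma e4_zero : e4 0 = 1 := by simp [e4]
lemma chi_zero : chi 0 = 1 := by simp [chi]
lemma chi_one : chi 1 = -1 := by
  unfold chi; rw [show (1 : ZMod 2).val = 1 from rfl]; simp

lemma e4_sum {J : Type} (s : Finset J) (a : J → ZMod 4) : e4 (∑ j ∈ s, a j) = ∏ j ∈ s, e4 (a j) := by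
  classical
  induction s using Finset.induction_on with
  | empty => simp [e4_zero]
  | insert b s hb ih => rw [sum_insert hb, prod_insert hb, e4_add, ih]

lemma chi_sum {J : Type} (s : Finset J) (a : J → ZMod 2) : chi (∑ j ∈ s, a j) = ∏ j ∈ s, chi (a j) := by
  classical
  induction s using Finset.induction_on with
  | empty => simp [chi_zero]
  | insert b s hb ih => rw [sum_insert hb, prod_insert hb, chi_add, ih]

lemma sum_zmod2 (f : ZMod 2 → ℂ) : ∑ b, f b = f 0 + f 1 := Fin.sum_univ_two f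

lemma orth (ξ : N → ZMod 2) :
    ∑ f : N → ZMod 2, chi (ξ ⬝ᵥ f) = if ξ = 0 then (2 : ℂ) ^ Fintype.card N else 0 := by
  simp only [dotProduct, chi_sum]
  rw [← Fintype.piFinset_univ, ← Finset.prod_univ_sum (fun _ => univ) (fun i b => chi (ξ i * b))]
  split_ifs with h
  · subst h; simp [chi_zero]
  · obtain ⟨i, hi⟩ := Function.ne_iff.1 h
    apply prod_eq_zero (mem_univ i)
    rcases zmod2 (ξ i) with h1 | h1
    · exact absurd h1 hi
    · rw [sum_zmod2, h1]; simp [chi_zero, chi_one]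

lemma add_eq_zero_iff2 (f g : N → ZMod 2) : f + g = 0 ↔ g = f := by
  have : ∀ a b : ZMod 2, a + b = 0 ↔ b = a := by decide
  simp only [funext_iff, Pi.add_apply, Pi.zero_apply, this]

lemma add_add_self (f z : N → ZMod 2) : f + z + z = f := by
  have : ∀ a b : ZMod 2, a + b + b = a := by decide
  funext i; exact this _ _

noncomputable def Kq (q : (N → ZMod 2) → ZMod 4) : Matrix (N → ZMod 2) (N → ZMod 2) ℂ :=
  fun f f' => ((2 : ℂ) ^ Fintype.card N)⁻¹ * ∑ ξ, e4 (q ξ) * chi (ξ ⬝ᵥ (f + f'))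

lemma Kq_add (q q' : (N → ZMod 2) → ZMod 4) : Kq (q + q') = Kq q * Kq q' := by
  ext f f'
  simp only [Kq, Matrix.mul_apply]
  have h2 : ((2 : ℂ) ^ Fintype.card N) ≠ 0 := pow_ne_zero _ two_ne_zero
  set c := ((2 : ℂ) ^ Fintype.card N)
  have : ∀ g : N → ZMod 2, (c⁻¹ * ∑ ξ, e4 (q ξ) * chi (ξ ⬝ᵥ (f + g))) *
      (c⁻¹ * ∑ ξ, e4 (q' ξ) * chi (ξ ⬝ᵥ (g + f'))) =
      c⁻¹ * c⁻¹ * ∑ ξ, ∑ ξ', (e4 (q ξ) * e4 (q' ξ') * chi (ξ ⬝ᵥ f) * chi (ξ' ⬝ᵥ f')) *
        chi ((ξ + ξ') ⬝ᵥ g) := by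
    intro g
    rw [mul_mul_mul_comm, sum_mul_sum]
    congr 1
    refine sum_congr rfl fun ξ _ => sum_congr rfl fun ξ' _ => ?_
    simp only [dotProduct_add, add_dotProduct, chi_add]; ring
  simp only [this]
  rw [← mul_sum, sum_comm, mul_assoc]
  congr 1
  rw [mul_sum]
  refine sum_congr rfl fun ξ _ => ?_
  rw [sum_comm]
  simp only [← mul_sum, orth, add_eq_zero_iff2, mul_ite, mul_zero, sum_ite_eq', mem_univ, if_true,
    Pi.add_apply, e4_add, dotProduct_add, chi_add]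
  field_simp
  rfl

lemma Kq_of (q : (N → ZMod 2) → ZMod 4) (z : N → ZMod 2) (a b : ℂ)
    (h : ∀ ξ, e4 (q ξ) = a + b * chi (z ⬝ᵥ ξ)) (f f' : N → ZMod 2) :
    Kq q f f' = a * (if f' = f then 1 else 0) + b * (if f' = f + z then 1 else 0) := by
  have h2 : ((2 : ℂ) ^ Fintype.card N) ≠ 0 := pow_ne_zero _ two_ne_zero
  simp only [Kq, h]
  have : ∀ ξ : N → ZMod 2, (a + b * chi (z ⬝ᵥ ξ)) * chi (ξ ⬝ᵥ (f + f')) =
      a * chi ((f + f') ⬝ᵥ ξ) + b * chi ((f + z + f') ⬝ᵥ ξ) := by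
    intro ξ
    rw [dotProduct_comm ξ]
    simp only [add_dotProduct, chi_add]; ring
  simp only [this, sum_add_distrib, ← mul_sum, orth, add_eq_zero_iff2]
  split_ifs <;> field_simp <;> simp

lemma Kq_ell (z : N → ZMod 2) : Kq (ell z) = Cl (fun f => f + z) := by
  ext f f'
  rw [Kq_of (ell z) z ca cb]
  · simp only [Cl]; congr
  · intro ξ
    unfold ell
    rcases zmod2 (z ⬝ᵥ ξ) with h | h <;> rw [h]
    · simp [e4_zero, chi_zero, ca_add_cb]
    · rw [chi_one, show (1 : ZMod 2).val = 1 from rfl]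
      unfold e4 ca cb
      rw [show (((1 : ℕ) : ZMod 4)).val = 1 from rfl]; ring

lemma Kq_two (z : N → ZMod 2) : Kq (ell z + ell z) = Mon (fun _ => 1) (fun f => f + z) := by
  ext f f'
  rw [Kq_of (ell z + ell z) z 0 1]
  · simp only [Mon]; simp
  · intro ξ
    simp only [Pi.add_apply, ell]
    rcases zmod2 (z ⬝ᵥ ξ) with h | h <;> rw [h]
    · simp [e4_zero, chi_zero]
    · rw [chi_one, show (1 : ZMod 2).val = 1 from rfl]
      unfold e4
      rw [show (((1 : ℕ) : ZMod 4) + ((1 : ℕ) : ZMod 4)).val = 2 from rfl]; simp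

lemma ell_zero : ell (0 : N → ZMod 2) = 0 := by
  funext ξ; simp [ell]

def wt : (N → ZMod 2) → ZMod 4 := ∑ i : N, ell (Pi.single i 1)

lemma Kq_wt : Kq (wt (N := N)) = Cpow N := by
  ext f f'
  simp only [Kq, wt, Finset.sum_apply, e4_sum, ell, single_dotProduct, one_mul]
  simp only [dotProduct, chi_sum, ← prod_mul_distrib, Cpow, tens]
  rw [← Fintype.piFinset_univ, ← Finset.prod_univ_sum (fun _ => univ)
    (fun i b => e4 ((b.val : ℕ) : ZMod 4) * chi (b * (f + f') i)), ← card_univ, ← prod_const,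
    ← prod_inv_distrib, ← prod_mul_distrib]
  refine prod_congr rfl fun i _ => ?_
  rw [sum_zmod2]
  have h1 : e4 (((1 : ZMod 2).val : ℕ) : ZMod 4) = Complex.I := by
    unfold e4; rw [show ((((1 : ZMod 2).val : ℕ) : ZMod 4)).val = 1 from rfl]; simp
  have h11 : (1 : ZMod 2) + 1 = 0 := by decide
  rw [h1]
  simp only [Pi.add_apply, Cbit, Cl]
  rcases zmod2 (f i) with h | h <;> rcases zmod2 (f' i) with h' | h' <;>
    simp [h, h', e4_zero, chi_zero, chi_one, h11, ca, cb] <;> ring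

inductive Q : ℕ → ((N → ZMod 2) → ZMod 4) → Prop
  | zero (y : N → ZMod 2) : Q 0 (ell y + ell y)
  | succ {n : ℕ} {q : (N → ZMod 2) → ZMod 4} (z : N → ZMod 2) (h : Q n q) : Q (n + 1) (ell z + q)

lemma two_ell_add (y z : N → ZMod 2) : ell (y + z) + ell (y + z) = (ell y + ell y) + (ell z + ell z) := by
  funext ξ
  simp only [ell, Pi.add_apply, add_dotProduct]
  generalize y ⬝ᵥ ξ = a
  generalize z ⬝ᵥ ξ = b
  revert a b; decide

lemma four_eq (q : (N → ZMod 2) → ZMod 4) : q + q + q + q = 0 := by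
  funext ξ
  simp only [Pi.add_apply, Pi.zero_apply]
  generalize q ξ = a
  revert a; decide

lemma Q.of_eq {n n' : ℕ} {q q' : (N → ZMod 2) → ZMod 4} (h : Q n q) (hn : n = n') (hq : q = q') :
    Q n' q' := hn ▸ hq ▸ h

lemma Q.zero' : Q 0 (0 : (N → ZMod 2) → ZMod 4) := (Q.zero 0).of_eq rfl (by simp [ell_zero])

lemma Q.add_two {n : ℕ} {q : (N → ZMod 2) → ZMod 4} (h : Q n q) (y : N → ZMod 2) :
    Q n (q + (ell y + ell y)) := by
  induction h with
  | zero z => exact (Q.zero (z + y)).of_eq rfl (two_ell_add z y)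
  | succ z _ ih => exact (Q.succ z ih).of_eq rfl (by abel)

lemma Q.add {n m : ℕ} {q q' : (N → ZMod 2) → ZMod 4} (h : Q n q) (h' : Q m q') :
    Q (n + m) (q + q') := by
  induction h' with
  | zero y => exact h.add_two y
  | succ z _ ih => exact (Q.succ z ih).of_eq rfl (by abel)

lemma Q.ell (z : N → ZMod 2) : Q 1 (ell z) := (Q.succ z Q.zero').of_eq rfl (by simp)

lemma Q.neg {n : ℕ} {q : (N → ZMod 2) → ZMod 4} (h : Q n q) : Q n (-q) := by
  induction h with
  | zero y =>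
    refine (Q.zero y).of_eq rfl ?_
    rw [eq_neg_iff_add_eq_zero, ← add_assoc]; exact four_eq _
  | @succ n q z _ ih =>
    refine ((Q.succ z ih).add_two z).of_eq rfl ?_
    rw [eq_neg_iff_add_eq_zero, ← four_eq (Vale.Agent.P344.ell z)]; abel

lemma Q.sum {J : Type} (s : Finset J) {n : ℕ} {q : J → (N → ZMod 2) → ZMod 4}
    (h : ∀ j ∈ s, Q n (q j)) : Q (s.card * n) (∑ j ∈ s, q j) := by
  classical
  induction s using Finset.induction_on with
  | empty => simpa using Q.zero'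
  | insert b s hb ih =>
    rw [sum_insert hb, card_insert_of_notMem hb]
    exact ((h b (mem_insert_self _ _)).add (ih fun j hj => h j (mem_insert_of_mem hj))).of_eq
      (by ring) rfl

lemma Q.sum_ell {J : Type} (s : Finset J) (z : J → N → ZMod 2) :
    Q s.card (∑ j ∈ s, Vale.Agent.P344.ell (z j)) :=
  (Q.sum s fun j _ => Q.ell (z j)).of_eq (by simp) rfl

lemma R4 (a b c d : N → ZMod 2) : Q 0 (ell a + ell b + ell c + ell d - ell (a + b + c) - ell (a + b + d)
    - ell (a + c + d) - ell (b + c + d)) := by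
  refine (Q.zero (a + b + c + d)).of_eq rfl ?_
  funext ξ
  simp only [ell, Pi.add_apply, Pi.sub_apply, add_dotProduct]
  generalize a ⬝ᵥ ξ = a'
  generalize b ⬝ᵥ ξ = b'
  generalize c ⬝ᵥ ξ = c'
  generalize d ⬝ᵥ ξ = d'
  revert a' b' c' d'; decide

noncomputable def Dq (k : ℕ) (q : (N → ZMod 2) → ZMod 4) :
    Matrix (Fin k → N → ZMod 2) (Fin k → N → ZMod 2) ℂ := tens fun _ : Fin k => Kq q

lemma Dq_add (k : ℕ) (q q' : (N → ZMod 2) → ZMod 4) : Dq k (q + q') = Dq k q * Dq k q' := by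
  unfold Dq
  rw [← tens_mul]; simp only [Kq_add]

lemma Dq_two (k : ℕ) (z : N → ZMod 2) :
    Dq k (ell z + ell z) = Mon (fun _ => 1) (fun g j => g j + z) := by
  unfold Dq
  simp only [Kq_two]
  rw [tens_Mon]; simp

lemma app_Dq_zero (k : ℕ) (x : (Fin k → N → ZMod 2) → M) : app (Dq k 0) x = x := by
  have := Dq_two (N := N) k 0
  rw [ell_zero, add_zero] at this
  rw [this, app_Mon]; simp

lemma cost_Dq {k : ℕ} {τ : ℝ} (hτ : 0 ≤ τ) (hF : Fast M k τ) {n : ℕ} {q : (N → ZMod 2) → ZMod 4}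
    (h : Q n q) : Cost M (Dq k q) (n * (τ * Fintype.card (Fin k → N → ZMod 2))) := by
  induction h with
  | zero y => rw [Dq_two]; simpa using cost_perm _
  | succ z _ ih =>
    rw [Dq_add]
    have : Cost M (Dq k (ell z)) (τ * Fintype.card (Fin k → N → ZMod 2)) := by
      unfold Dq
      simp only [Kq_ell]
      exact cost_tens_Cl hτ hF (by simp) (fun _ f => f + z) fun _ f => add_add_self f z
    refine (this.mul ih).mono (le_of_eq ?_)
    push_cast; ring

lemma frame_move {k : ℕ} {τ : ℝ} (hτ : 0 ≤ τ) (hF : Fast M k τ) {n : ℕ}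
    {q q' : (N → ZMod 2) → ZMod 4} (h : Q n (q' - q)) {a : (Fin k → N → ZMod 2) → M} {S : Set M}
    (ha : In (app (Dq k q) a) S) :
    Can S (n * (τ * Fintype.card (Fin k → N → ZMod 2))) (In (app (Dq k q') a)) := by
  have := cost_Dq hτ hF h _ S ha
  rw [← app_mul, ← Dq_add, sub_add_cancel] at this
  exact this

end Vale.Agent.P344
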