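import Vale.Agent.P344.Conv

open Finset

namespace Vale.Agent.P344

set_option linter.unusedSectionVars false

section
variable {Q W : Type}

abbrev St3 (Q W : Type) := (Q → ℂ) × (Q → ℂ) × (W → ℂ)

def pack (s : St3 Q W) : (Q ⊕ Q) ⊕ W → ℂ := Sum.elim (Sum.elim s.1 s.2.1) s.2.2
def unpack (v : (Q ⊕ Q) ⊕ W → ℂ) : St3 Q W :=
  (fun a => v (.inl (.inl a)), fun a => v (.inl (.inr a)), fun w => v (.inr w))

lemma unpack_pack (s : St3 Q W) : unpack (pack s) = s := rfl

def LayG (T : ℕ) (F : St3 Q W → St3 Q W) : Prop := LayF T (fun v => pack (F (unpack v)))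

lemma LayG.comp {T T' : ℕ} {F F' : St3 Q W → St3 Q W} (h : LayG T F) (h' : LayG T' F') :
    LayG (T + T') (fun s => F' (F s)) := LayF.comp h h'

lemma LayG.of_eq {T T' : ℕ} {F F' : St3 Q W → St3 Q W} (h : LayG T F) (hT : T = T')
    (hF : ∀ s, F s = F' s) : LayG T' F' := by
  have : F = F' := funext hF
  exact hT ▸ this ▸ h

lemma layG_w {j : Q → W} (hj : Function.Injective j) {c : ℂ} (hc : c ≠ 0) :
    LayG 4 (fun s : St3 Q W => (s.1, s.2.1, fun w => s.2.2 w + c * Function.extend j s.1 0 w)) := by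
  have ht : Function.Injective (fun a : Q => (Sum.inr (j a) : (Q ⊕ Q) ⊕ W)) :=
    fun a b h => hj (Sum.inr_injective h)
  refine (shear (fun a : Q => (Sum.inl (Sum.inl a) : (Q ⊕ Q) ⊕ W)) (fun a => Sum.inr (j a))
    (fun a b h => by simpa using h) ht (fun a b => by simp) hc).of_eq rfl fun x i => ?_
  rcases i with (a | a) | w
  · rw [Function.extend_apply' _ _ _ (by simp)]; simp [pack, unpack]
  · rw [Function.extend_apply' _ _ _ (by simp)]; simp [pack, unpack]
  · simp only [pack, unpack, Sum.elim_inr]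
    by_cases h : ∃ a, j a = w
    · obtain ⟨a, rfl⟩ := h
      rw [hj.extend_apply, ht.extend_apply]
    · rw [Function.extend_apply' _ _ _ h, Function.extend_apply' _ _ _ (by simpa using h)]; rfl

lemma layG_y {j : Q → W} (hj : Function.Injective j) {c : ℂ} (hc : c ≠ 0) :
    LayG 4 (fun s : St3 Q W => (s.1, fun a => s.2.1 a + c * s.2.2 (j a), s.2.2)) := by
  have ht : Function.Injective (fun a : Q => (Sum.inl (Sum.inr a) : (Q ⊕ Q) ⊕ W)) :=
    fun a b h => by simpa using h
  refine (shear (fun a : Q => (Sum.inr (j a) : (Q ⊕ Q) ⊕ W)) (fun a => Sum.inl (Sum.inr a))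
    (fun a b h => hj (Sum.inr_injective h)) ht (fun a b => by simp) hc).of_eq rfl fun x i => ?_
  rcases i with (a | a) | w
  · rw [Function.extend_apply' _ _ _ (by simp)]; simp [pack, unpack]
  · rw [ht.extend_apply]; simp [pack, unpack]
  · rw [Function.extend_apply' _ _ _ (by simp)]; simp [pack, unpack]

lemma layG_xy {c : ℂ} (hc : c ≠ 0) :
    LayG 4 (fun s : St3 Q W => (s.1, fun a => s.2.1 a + c * s.1 a, s.2.2)) := by
  have ht : Function.Injective (fun a : Q => (Sum.inl (Sum.inr a) : (Q ⊕ Q) ⊕ W)) :=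
    fun a b h => by simpa using h
  refine (shear (fun a : Q => (Sum.inl (Sum.inl a) : (Q ⊕ Q) ⊕ W)) (fun a => Sum.inl (Sum.inr a))
    (fun a b h => by simpa using h) ht (fun a b => by simp) hc).of_eq rfl fun x i => ?_
  rcases i with (a | a) | w
  · rw [Function.extend_apply' _ _ _ (by simp)]; simp [pack, unpack]
  · rw [ht.extend_apply]; simp [pack, unpack]
  · rw [Function.extend_apply' _ _ _ (by simp)]; simp [pack, unpack]

lemma layG_K {T : ℕ} {K : (W → ℂ) → W → ℂ} (h : LayF T K) :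
    LayG T (fun s : St3 Q W => (s.1, s.2.1, K s.2.2)) := by
  refine (h.ext (ι := (Q ⊕ Q) ⊕ W) Sum.inr_injective).of_eq rfl fun x i => ?_
  rcases i with (a | a) | w
  · rw [Function.extend_apply' _ _ _ (by simp)]; simp [pack, unpack]
  · rw [Function.extend_apply' _ _ _ (by simp)]; simp [pack, unpack]
  · rw [Sum.inr_injective.extend_apply]; simp [pack, unpack]

lemma layG_scale (d e : Q → ℂ) :
    LayG 1 (fun s : St3 Q W => (fun a => d a * s.1 a, fun a => e a * s.2.1 a, s.2.2)) := by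
  refine (LayF.mon (ι := (Q ⊕ Q) ⊕ W) (Sum.elim (Sum.elim d e) 1) (fun i => i)).of_eq rfl
    fun x i => ?_
  rcases i with (a | a) | w <;> simp [pack, unpack]

lemma layG_swap (d e : ℂ) (p r : Q → Q) :
    LayG 1 (fun s : St3 Q W => (fun a => d * s.2.1 (p a), fun a => e * s.1 (r a), s.2.2)) := by
  refine (LayF.mon (ι := (Q ⊕ Q) ⊕ W) (Sum.elim (Sum.elim (fun _ => d) (fun _ => e)) 1)
    (Sum.elim (Sum.elim (fun a => .inl (.inr (p a))) (fun a => .inl (.inl (r a)))) .inr)).of_eq rfl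
    fun x i => ?_
  rcases i with (a | a) | w <;> simp [pack, unpack]

end

lemma layG_toep {Q : Type} [Fintype Q] (a : ℕ) {j : Q → ZMod (2 ^ a)} (hj : Function.Injective j)
    (κ : ZMod (2 ^ a) → ℂ) :
    LayG (24 * a + 28) (fun s : St3 Q (ZMod (2 ^ a)) =>
      (s.1, fun u => s.2.1 u + ∑ v, κ (j u - j v) * s.1 v, s.2.2)) := by
  classical
  have hD := isDual_FZ (2 ^ a)
  obtain ⟨c, hc⟩ := Infinite.exists_notMem_finset
    (insert (0 : ℂ) (univ.image fun ξ : ZMod (2 ^ a) => -∑ u, κ u * FZ (2 ^ a) ξ u))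
  simp only [mem_insert, mem_image, mem_univ, true_and, not_or, not_exists] at hc
  set d : ZMod (2 ^ a) → ℂ := fun ξ => ∑ u, κ u * FZ (2 ^ a) ξ u + c with hd
  have hd0 : ∀ ξ, d ξ ≠ 0 := fun ξ h => hc.2 ξ (by rw [hd] at h; linear_combination -h)
  have K1 := layG_K (Q := Q) (layF_Kop a d)
  have K2 := layG_K (Q := Q) (layF_Kop a fun ξ => (d ξ)⁻¹)
  have hinv : ∀ w : ZMod (2 ^ a) → ℂ, Kop (FZ (2 ^ a)) (fun ξ => (d ξ)⁻¹) (Kop (FZ (2 ^ a)) d w) = w :=
    fun w => hD.Kop_Kop _ _ (fun ξ => inv_mul_cancel₀ (hd0 ξ)) w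
  refine ((((((((K1.comp (layG_y hj (c := -1) (by norm_num))).comp K2).comp
    (layG_w hj one_ne_zero)).comp K1).comp (layG_y hj one_ne_zero)).comp K2).comp
    (layG_w hj (c := -1) (by norm_num))).comp (layG_xy (neg_ne_zero.2 hc.1))).of_eq (by ring) ?_
  rintro ⟨x, y, w⟩
  simp only [hinv, Prod.mk.injEq, true_and]
  refine ⟨?_, by funext u; ring⟩
  funext u
  rw [Kop_add, hd, hD.Kop_conv κ c (fun w => 1 * Function.extend j x 0 w)]
  simp only [one_mul, hj.extend_apply, smul_eq_mul]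
  have : ∑ g', κ (j u - g') * Function.extend j x 0 g' = ∑ v, κ (j u - j v) * x v := by
    symm
    apply Finset.sum_of_injOn j hj.injOn (fun _ _ => mem_univ _)
    · intro g _ hg
      rw [Function.extend_apply' _ _ _ (fun ⟨v, hv⟩ => hg ⟨v, by simp, hv⟩)]; simp
    · intro v _; rw [hj.extend_apply]
  rw [this]; ring

lemma layG_F (q a : ℕ) [NeZero q] (h : 2 * q ≤ 2 ^ a) {c : ℂ} (hc : c ≠ 0) :
    LayG (24 * a + 30) (fun s : St3 (ZMod q) (ZMod (2 ^ a)) =>
      (s.1, fun u => s.2.1 u + c * app (FZ q) s.1 u, s.2.2)) := by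
  have hj : Function.Injective fun u : ZMod q => ((u.val : ℕ) : ZMod (2 ^ a)) := by
    intro u v huv
    have := congrArg ZMod.val huv
    have h1 := ZMod.val_lt u
    have h2 := ZMod.val_lt v
    simp only at this
    rw [ZMod.val_natCast_of_lt (by omega), ZMod.val_natCast_of_lt (by omega)] at this
    exact ZMod.val_injective q this
  refine (((layG_scale (fun u => psi q u.val) (fun u => (c * psi q u.val)⁻¹)).comp
    (layG_toep a hj (kap q (2 ^ a)))).comp
    (layG_scale (fun u => (psi q u.val)⁻¹) (fun u => c * psi q u.val))).of_eq (by ring) ?_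
  rintro ⟨x, y, w⟩
  simp only [Prod.mk.injEq, and_true]
  constructor
  · funext u; rw [← mul_assoc, inv_mul_cancel₀ (psi_ne _ _), one_mul]
  · funext u
    have := psi_ne q u.val
    rw [mul_add, ← mul_assoc, mul_inv_cancel₀ (mul_ne_zero hc this), one_mul, mul_assoc]
    congr 2
    rw [app, mul_sum]
    refine sum_congr rfl fun v _ => ?_
    rw [FZ, bluestein h (ZMod.val_lt u) (ZMod.val_lt v), smul_eq_mul]; ring

lemma layG_FF (q a : ℕ) [NeZero q] (h : 2 * q ≤ 2 ^ a) :
    LayG (72 * a + 93) (fun s : St3 (ZMod q) (ZMod (2 ^ a)) =>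
      (app (FZ q) s.1, app (FZ q) s.2.1, s.2.2)) := by
  have hD := isDual_FZ q
  have hq : (Fintype.card (ZMod q) : ℂ) ≠ 0 := card_ne
  refine ((((((layG_F q a h one_ne_zero).comp (layG_swap 1 1 (fun u => u) (fun u => -u))).comp
    (layG_F q a h (c := -(Fintype.card (ZMod q) : ℂ)⁻¹) (neg_ne_zero.2 (inv_ne_zero hq)))).comp
    (layG_swap 1 1 (fun u => -u) (fun u => u))).comp (layG_F q a h one_ne_zero)).comp
    (layG_swap 1 (-(Fintype.card (ZMod q) : ℂ)) (fun u => u) (fun u => -u))).of_eq (by ring) ?_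
  rintro ⟨x, y, w⟩
  simp only [Prod.mk.injEq, and_true, one_mul, neg_neg]
  have e1 : ∀ u, x u + -(Fintype.card (ZMod q) : ℂ)⁻¹ *
      app (FZ q) (fun u => y u + app (FZ q) x u) (-u) =
      (-(Fintype.card (ZMod q) : ℂ)⁻¹) • app (FZ q) y (-u) := by
    intro u
    rw [app_add', ← hD.inv x u]
    simp only [smul_eq_mul]; ring
  constructor
  · funext u
    simp only [e1]
    rw [app_smul', hD.app_neg (app (FZ q) y), neg_smul, hD.inv]; ring
  · funext u
    have := e1 (-u)
    rw [neg_neg] at this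
    rw [this, smul_eq_mul]
    field_simp

abbrev B6 := Fin 3 × Bool

lemma layF_round (q a : ℕ) [NeZero q] (h : 2 * q ≤ 2 ^ a) (h' : 2 ^ a ≤ 4 * q) (r : Fin 3) :
    LayF (72 * a + 93) (fun (x : B6 × ZMod q → ℂ) p =>
      if p.1.1 = r then app (FZ q) (fun u => x (p.1, u)) p.2 else x p) := by
  classical
  obtain ⟨g⟩ : Nonempty (ZMod (2 ^ a) ↪ ({s : Fin 3 // s ≠ r} × Bool) × ZMod q) := by
    apply Function.Embedding.nonempty_of_card_le
    simp only [ZMod.card, Fintype.card_prod, Fintype.card_bool, ne_eq, Fintype.card_subtype_compl,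
      Fintype.card_fin, Fintype.card_unique]
    omega
  let e : (ZMod q ⊕ ZMod q) ⊕ ZMod (2 ^ a) → B6 × ZMod q :=
    Sum.elim (Sum.elim (fun u => ((r, false), u)) (fun u => ((r, true), u)))
      (fun w => (((g w).1.1.1, (g w).1.2), (g w).2))
  have hg : ∀ w, (g w).1.1.1 ≠ r := fun w => (g w).1.1.2
  have he : Function.Injective e := by
    rintro ((u | u) | u) ((v | v) | v) huv <;> simp only [e, Sum.elim_inl, Sum.elim_inr, Prod.mk.injEq] at huv
    all_goals first
      | (simp_all; done)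
      | exact absurd huv.1.1.symm (hg _)
      | exact absurd huv.1.1 (hg _)
      | exact congrArg _ (g.injective (Prod.ext (Prod.ext (Subtype.ext huv.1.1) huv.1.2) huv.2))
  refine (LayF.ext he (layG_FF q a h)).of_eq rfl fun x p => ?_
  by_cases hp : ∃ k, e k = p
  · obtain ⟨k, rfl⟩ := hp
    rw [he.extend_apply]
    rcases k with (u | u) | u
    · simp [e, pack, unpack]
    · simp [e, pack, unpack]
    · simp [e, pack, unpack, hg]
  · rw [Function.extend_apply' _ _ _ hp, if_neg]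
    obtain ⟨⟨s, b⟩, u⟩ := p
    rintro rfl
    apply hp
    cases b
    · exact ⟨.inl (.inl u), rfl⟩
    · exact ⟨.inl (.inr u), rfl⟩

open Classical in
noncomputable def A6 (q : ℕ) : Matrix (B6 × ZMod q) (B6 × ZMod q) ℂ :=
  fun p p' => if p'.1 = p.1 then FZ q p.2 p'.2 else 0

lemma lay_A6 (q a : ℕ) [NeZero q] (h : 2 * q ≤ 2 ^ a) (h' : 2 ^ a ≤ 4 * q) {T : ℕ}
    (hT : 216 * a + 279 ≤ T) : Lay T (A6 q) := by
  apply LayF.lay
  refine LayF.mono ?_ hT
  refine (((layF_round q a h h' 0).comp (layF_round q a h h' 1)).comp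
    (layF_round q a h h' 2)).of_eq (by ring) fun x p => ?_
  obtain ⟨⟨s, b⟩, u⟩ := p
  have : app (A6 q) x ((s, b), u) = app (FZ q) (fun v => x ((s, b), v)) u := by
    simp only [app, A6]
    rw [Fintype.sum_prod_type, sum_eq_single (s, b)]
    · simp
    · intro t _ ht; simp [ht]
    · simp
  rw [this]
  fin_cases s <;> simp

end Vale.Agent.P344
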