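import Vale.Agent.P344.Tens

open Finset

namespace Vale.Agent.P344

set_option linter.unusedSectionVars false

inductive LayF {ι : Type} : ℕ → ((ι → ℂ) → ι → ℂ) → Prop
  | zero : LayF 0 (fun x => x)
  | succ {T : ℕ} {g : (ι → ℂ) → ι → ℂ} (d : ι → ℂ) (π : ι → ι) (σ : ι → ι) (hσ : ∀ u, σ (σ u) = u)
      (h : LayF T g) : LayF (T + 1) (fun x i => d i * (ca * g x (π i) + cb * g x (σ (π i))))

variable {ι κ : Type}

lemma LayF.of_eq {T T' : ℕ} {f g : (ι → ℂ) → ι → ℂ} (h : LayF T f) (hT : T = T')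
    (hf : ∀ x i, f x i = g x i) : LayF T' g := by
  have : f = g := funext fun x => funext fun i => hf x i
  exact hT ▸ this ▸ h

lemma LayF.toLay [Fintype ι] {T : ℕ} {f : (ι → ℂ) → ι → ℂ} (h : LayF T f) :
    ∃ A, Lay T A ∧ ∀ x, app A x = f x := by
  classical
  induction h with
  | zero => exact ⟨_, Lay.zero, fun x => by convert app_one x⟩
  | succ d π σ hσ _ ih =>
    obtain ⟨A, hA, h⟩ := ih
    refine ⟨_, Lay.succ d π σ hσ hA, fun x => ?_⟩
    rw [app_mul, app_mul, h, app_Cl, app_Mon]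
    simp

lemma LayF.lay [Fintype ι] {T : ℕ} {A : Matrix ι ι ℂ} (h : LayF T (app A)) : Lay T A := by
  classical
  obtain ⟨B, hB, h⟩ := h.toLay
  have : B = A := by
    ext i j
    have := congrFun (h (Pi.single j 1)) i
    simpa [app, Pi.single_apply] using this
  exact this ▸ hB

lemma LayF.comp {T T' : ℕ} {f g : (ι → ℂ) → ι → ℂ} (hf : LayF T f) (hg : LayF T' g) :
    LayF (T + T') (fun x => g (f x)) := by
  induction hg with
  | zero => exact hf
  | succ d π σ hσ _ ih => exact LayF.succ d π σ hσ ih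

lemma LayF.mon (d : ι → ℂ) (π : ι → ι) : LayF 1 (fun x i => d i * x (π i)) :=
  (LayF.succ d π (fun i => i) (fun _ => rfl) LayF.zero).of_eq rfl fun x i => by
    rw [← add_mul, ca_add_cb, one_mul]

lemma LayF.mono {T T' : ℕ} {f : (ι → ℂ) → ι → ℂ} (h : LayF T f) (hT : T ≤ T') : LayF T' f := by
  induction hT with
  | refl => exact h
  | step _ ih => exact (ih.comp (LayF.mon (fun _ => 1) (fun i => i))).of_eq rfl fun x i => by simp

lemma LayF.par (α : Type) {T : ℕ} {f : (κ → ℂ) → κ → ℂ} (h : LayF T f) :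
    LayF T (fun (x : α × κ → ℂ) p => f (fun k => x (p.1, k)) p.2) := by
  induction h with
  | zero => exact LayF.zero
  | succ d π σ hσ _ ih =>
    exact LayF.succ (fun p => d p.2) (fun p => (p.1, π p.2)) (fun p => (p.1, σ p.2))
      (fun u => by simp [hσ]) ih

lemma LayF.ext {e : κ → ι} (he : Function.Injective e) {T : ℕ} {f : (κ → ℂ) → κ → ℂ}
    (h : LayF T f) : LayF T (fun x => Function.extend e (f (fun k => x (e k))) x) := by
  induction h with
  | zero =>
    refine LayF.zero.of_eq rfl fun x i => ?_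
    by_cases hi : ∃ k, e k = i
    · obtain ⟨k, rfl⟩ := hi; rw [he.extend_apply]
    · rw [Function.extend_apply' _ _ _ hi]
  | succ d π σ hσ _ ih =>
    refine (LayF.succ (Function.extend e d 1) (Function.extend e (fun k => e (π k)) (fun i => i))
      (Function.extend e (fun k => e (σ k)) (fun i => i)) ?_ ih).of_eq rfl fun x i => ?_
    · intro i
      by_cases hi : ∃ k, e k = i
      · obtain ⟨k, rfl⟩ := hi; simp only [he.extend_apply, hσ]
      · simp only [Function.extend_apply' _ _ _ hi]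
    · by_cases hi : ∃ k, e k = i
      · obtain ⟨k, rfl⟩ := hi; simp only [he.extend_apply]
      · simp only [Function.extend_apply' _ _ _ hi, Pi.one_apply]
        rw [← add_mul, ca_add_cb]; ring

lemma LayF.equiv (e : κ ≃ ι) {T : ℕ} {f : (κ → ℂ) → κ → ℂ} (h : LayF T f) :
    LayF T (fun x i => f (fun k => x (e k)) (e.symm i)) :=
  (h.ext e.injective).of_eq rfl fun x i => by
    obtain ⟨k, rfl⟩ := e.surjective i
    rw [e.injective.extend_apply, e.symm_apply_apply]

lemma LayF.equiv2 (e e' : κ ≃ ι) {T : ℕ} {f : (κ → ℂ) → κ → ℂ} (h : LayF T f) :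
    LayF (T + 1) (fun x i => f (fun k => x (e k)) (e'.symm i)) :=
  ((h.equiv e).comp (LayF.mon (fun _ => 1) (fun i => e (e'.symm i)))).of_eq rfl fun x i => by simp

lemma ca_ne : ca ≠ 0 := by
  intro h
  have := congrArg Complex.re h
  simp [ca] at this

lemma cb_eq : cb = -Complex.I * ca := by
  unfold ca cb; linear_combination (1 / 2 : ℂ) * Complex.I_mul_I

lemma shear0 (α : Type) {c : ℂ} (hc : c ≠ 0) :
    LayF 4 (fun (x : α ⊕ α → ℂ) => Sum.elim (fun a => x (.inl a)) (fun a => x (.inr a) + c * x (.inl a))) := by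
  have hs : ∀ u : α ⊕ α, u.swap.swap = u := Sum.swap_swap
  have h0 := LayF.mon (ι := α ⊕ α) (Sum.elim (fun _ => 2 * c / (5 * ca))
    (fun _ => 2 * Complex.I / (3 * ca))) (fun i => i)
  have h1 := LayF.succ (Sum.elim (fun _ => 1) (fun _ => -1 / 2)) (fun i => i) Sum.swap hs h0
  have h2 := LayF.succ (Sum.elim (fun _ => 3) (fun _ => 1)) (fun i => i) Sum.swap hs h1
  have h3 := LayF.succ (Sum.elim (fun _ => 5 * (-1 - Complex.I) * ca / (4 * c)) (fun _ => 1))
    (fun i => i) Sum.swap hs h2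
  refine h3.of_eq rfl fun x i => ?_
  have hca := ca_ne
  have hI : Complex.I ^ 2 = -1 := Complex.I_sq
  have hca2 : ca ^ 2 = Complex.I / 2 := by unfold ca; linear_combination (1 / 4 : ℂ) * hI
  rcases i with a | a
  · simp only [Sum.elim_inl, Sum.swap_inl, Sum.elim_inr, Sum.swap_inr, cb_eq]
    field_simp
    unfold ca
    ring_nf
    simp only [Complex.I_sq, Complex.I_pow_three, Complex.I_pow_four,
      show Complex.I ^ 5 = Complex.I by rw [pow_succ, Complex.I_pow_four, one_mul],
      show Complex.I ^ 6 = -1 by rw [show 6 = 4 + 2 from rfl, pow_add, Complex.I_pow_four, one_mul, hI],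
      show Complex.I ^ 7 = -Complex.I by rw [show 7 = 4 + 3 from rfl, pow_add, Complex.I_pow_four, one_mul, Complex.I_pow_three],
      show Complex.I ^ 8 = 1 by rw [show 8 = 4 + 4 from rfl, pow_add, Complex.I_pow_four, one_mul]]
    ring
  · simp only [Sum.elim_inl, Sum.swap_inl, Sum.elim_inr, Sum.swap_inr, cb_eq]
    field_simp
    unfold ca
    ring_nf
    simp only [Complex.I_sq, Complex.I_pow_three, Complex.I_pow_four,
      show Complex.I ^ 5 = Complex.I by rw [pow_succ, Complex.I_pow_four, one_mul]]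
    ring

lemma shear {α : Type} (s t : α → ι) (hs : Function.Injective s) (ht : Function.Injective t)
    (hd : ∀ a b, s a ≠ t b) {c : ℂ} (hc : c ≠ 0) :
    LayF 4 (fun (x : ι → ℂ) i => x i + c * Function.extend t (fun a => x (s a)) 0 i) := by
  have he : Function.Injective (Sum.elim s t) := hs.sumElim ht hd
  refine ((shear0 α hc).ext he).of_eq rfl fun x i => ?_
  by_cases hi : ∃ k, Sum.elim s t k = i
  · obtain ⟨k, rfl⟩ := hi
    rw [he.extend_apply]
    rcases k with a | a
    · simp only [Sum.elim_inl]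
      rw [Function.extend_apply' _ _ _ (fun ⟨b, hb⟩ => hd a b hb.symm)]; simp
    · simp only [Sum.elim_inr, Sum.elim_inl, ht.extend_apply]
  · have hi' : ¬ ∃ b, t b = i := fun ⟨b, hb⟩ => hi ⟨.inr b, hb⟩
    rw [Function.extend_apply' _ _ _ hi, Function.extend_apply' _ _ _ hi']; simp

lemma fft (a : ℕ) : ∀ ω : ℂ, IsPrimitiveRoot ω (2 ^ a) →
    LayF (3 * a) (fun (x : Fin (2 ^ a) → ℂ) j => ∑ k, ω ^ (j.val * k.val) * x k) := by
  induction a with
  | zero =>
    intro ω _
    refine LayF.zero.of_eq rfl fun x j => ?_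
    have : ∀ k : Fin (2 ^ 0), k = j := fun k => Fin.ext (by have := k.2; have := j.2; omega)
    rw [sum_eq_single j (fun b _ hb => absurd (this b) hb) (fun h => absurd (mem_univ j) h)]
    have : j.val = 0 := by have := j.2; omega
    rw [this, zero_mul, pow_zero, one_mul]
  | succ a ih =>
    intro ω hω
    have h2 : IsPrimitiveRoot (ω ^ 2) (2 ^ a) := hω.pow (by positivity) (by ring)
    have hm : ω ^ (2 ^ a) = -1 := (hω.pow (by positivity) (pow_succ 2 a)).eq_neg_one_of_two_right
    have l1 := (ih _ h2).par (Fin 2)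
    have l2 := l1.comp (LayF.mon (fun p : Fin 2 × Fin (2 ^ a) =>
      if p.1 = 0 then 1 else Complex.I * ω ^ p.2.val) (fun p => p))
    have l3 := LayF.succ (fun p : Fin 2 × Fin (2 ^ a) => if p.1 = 0 then ca⁻¹ else Complex.I * ca⁻¹)
      (fun p => p) (fun p => (p.1.rev, p.2)) (fun u => by simp) l2
    let e : Fin 2 × Fin (2 ^ a) ≃ Fin (2 ^ (a + 1)) :=
      (Equiv.prodComm _ _).trans (finProdFinEquiv.trans (finCongr (pow_succ 2 a).symm))
    let e' : Fin 2 × Fin (2 ^ a) ≃ Fin (2 ^ (a + 1)) :=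
      finProdFinEquiv.trans (finCongr (pow_succ' 2 a).symm)
    have he : ∀ s k, (e (s, k)).val = s.val + 2 * k.val := fun s k => by simp [e]
    have he' : ∀ r j, (e' (r, j)).val = j.val + 2 ^ a * r.val := fun r j => by simp [e']
    refine (l3.equiv2 e e').of_eq (by ring) fun x i => ?_
    obtain ⟨⟨r, j⟩, rfl⟩ := e'.surjective i
    rw [e'.symm_apply_apply, ← e.sum_comp, Fintype.sum_prod_type, Fin.sum_univ_two]
    simp only [he, he']
    have hN : ω ^ (2 ^ a * 2) = 1 := by rw [pow_mul, hm]; norm_num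
    have t0 : ∀ k : Fin (2 ^ a), ω ^ ((j.val + 2 ^ a * r.val) * ((0 : Fin 2).val + 2 * k.val)) =
        (ω ^ 2) ^ (j.val * k.val) := by
      intro k
      rw [← pow_mul, show (j.val + 2 ^ a * r.val) * ((0 : Fin 2).val + 2 * k.val) =
        2 * (j.val * k.val) + (2 ^ a * 2) * (r.val * k.val) by simp; ring, pow_add,
        pow_mul _ (2 ^ a * 2), hN, one_pow, mul_one]
    have t1 : ∀ k : Fin (2 ^ a), ω ^ ((j.val + 2 ^ a * r.val) * ((1 : Fin 2).val + 2 * k.val)) =
        (-1) ^ r.val * ω ^ j.val * (ω ^ 2) ^ (j.val * k.val) := by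
      intro k
      rw [← pow_mul, show (j.val + 2 ^ a * r.val) * ((1 : Fin 2).val + 2 * k.val) =
        2 ^ a * r.val + j.val + 2 * (j.val * k.val) + (2 ^ a * 2) * (r.val * k.val) by simp; ring,
        pow_add, pow_mul _ (2 ^ a * 2), hN, one_pow, mul_one, pow_add, pow_add, pow_mul _ (2 ^ a), hm]
    simp only [t0, t1, mul_assoc, ← mul_sum]
    have hca := ca_ne
    fin_cases r
    · simp [cb_eq]
      field_simp
      ring_nf
      simp
    · simp [cb_eq]
      field_simp
      ring_nf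
      simp

end Vale.Agent.P344
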