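import Vale.Agent.P344.Net

open Finset

namespace Vale.Agent.P344

set_option linter.unusedSectionVars false

variable {M : Type} [AddCommGroup M] [Module ℂ M]

lemma cost_Kq {N : Type} [Fintype N] [DecidableEq N] {n : ℕ} {q : (N → ZMod 2) → ZMod 4}
    (h : Q n q) : Cost M (Kq q) (n * (Fintype.card (N → ZMod 2) * 3)) := by
  induction h with
  | zero y => rw [Kq_two]; simpa using cost_perm _
  | succ z _ ih =>
    rw [Kq_add, Kq_ell]
    refine ((cost_Cl _).mul ih).mono (le_of_eq ?_)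
    push_cast; ring

lemma cost_naive (J : Type) [Fintype J] [DecidableEq J] :
    Cost M (Cpow J) (3 * Fintype.card J * 2 ^ Fintype.card J) := by
  rw [← Kq_wt]
  refine (cost_Kq wt_Q).mono (le_of_eq ?_)
  simp; ring

lemma Fast.mono {l l' : ℕ} {τ τ' : ℝ} (h : Fast M l τ) (hl : l' ≤ l) (hτ : τ ≤ τ') : Fast M l' τ' :=
  fun J _ _ hJ => (h J (hJ.trans hl)).mono (by gcongr)

lemma fast_naive (l : ℕ) : Fast M l (3 * l) := fun J _ _ hJ =>
  (cost_naive J).mono (by gcongr)

variable {I : Type} [Fintype I] [DecidableEq I]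

abbrev Wr (I : Type) [DecidableEq I] := (Tri I × Tri I ⊕ Tri I × Tri I) ⊕
  (Tri I × Pr I ⊕ Tri I × Pr I)

lemma card_tri (hI : Fintype.card I = 15) : Fintype.card (Tri I) = 455 := by
  rw [Fintype.card_finset_len, hI]; decide

lemma ncost_le (hI : Fintype.card I = 15) : ncost I 13 ≤ 225 * Fintype.card (Wr I) - 1 := by
  unfold ncost mcost
  simp only [Fintype.card_sum, Fintype.card_prod, card_tri hI, hI]
  push_cast
  linarith

lemma batch (hI : Fintype.card I = 15) {k : ℕ} {τ : ℝ} (hτ : 0 ≤ τ) (hF : Fast M k τ) {α : Type} [Fintype α]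
    (hα : Fintype.card (Wr I) ≤ Fintype.card α) (a : α → (Fin k → I × I → ZMod 2) → M)
    (S : Set M) (ha : ∀ w, In (a w) S) :
    Can S ((225 * Fintype.card α - 1) * (τ * Fintype.card (Fin k → I × I → ZMod 2)) +
      novh I * Fintype.card (Fin k → I × I → ZMod 2))
      (fun T => ∀ w, In (app (Dq k wt) (a w)) T) := by
  classical
  obtain ⟨e⟩ := Function.Embedding.nonempty_of_card_le hα
  have h1 := network hτ hF (I := I) (g := 13) (by omega) (by omega)
    (fun u => a (e (.inl (.inl u)))) (fun u => a (e (.inl (.inr u))))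
    (fun u => a (e (.inr (.inl u)))) (fun u => a (e (.inr (.inr u)))) S
    (fun _ => ha _) (fun _ => ha _) (fun _ => ha _) (fun _ => ha _)
  have h2 := h1.seq (Q := fun T => ∀ w, In (app (Dq k wt) (a w)) T) fun S1 s1 a1 =>
    (Can.family (univ \ univ.map e) (S := S1) (P := fun w T => In (app (Dq k wt) (a w)) T)
      (fun _ _ _ hTU h => h.mono hTU)
      (fun w _ T hT => cost_Dq hτ hF wt_Q (a w) T ((ha w).mono (s1.trans hT)))).mono le_rfl (by
        intro T hT _ h w
        by_cases hw : w ∈ univ.map e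
        · obtain ⟨u, -, rfl⟩ := mem_map.1 hw
          rcases u with (u | u) | (u | u)
          · exact (a1.1 u).mono hT
          · exact (a1.2.1 u).mono hT
          · exact (a1.2.2.1 u).mono hT
          · exact (a1.2.2.2 u).mono hT
        · exact h w (mem_sdiff.2 ⟨mem_univ _, hw⟩))
  refine h2.cost ?_
  rw [sum_const, nsmul_eq_mul, card_sdiff_of_subset (subset_univ _), card_map, card_univ, card_univ,
    Nat.cast_sub hα]
  have h3 := ncost_le hI
  have h4 : 0 ≤ τ * Fintype.card (Fin k → I × I → ZMod 2) := by positivity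
  have h5 : (Fintype.card (I × I) : ℝ) = 225 := by simp [hI]
  rw [h5]
  nlinarith

lemma split_cost {J N ρ : Type} [Fintype J] [DecidableEq J] [Fintype N] [DecidableEq N]
    [Fintype ρ] [DecidableEq ρ] {k : ℕ} (e : J ≃ (Fin k × N) ⊕ ρ) {c : ℝ}
    (hb : ∀ (a : (ρ → ZMod 2) → (Fin k → N → ZMod 2) → M) (S : Set M), (∀ w, In (a w) S) →
      Can S c (fun T => ∀ w, In (app (Dq k wt) (a w)) T)) :
    Cost M (Cpow J) (Fintype.card (Fin k → N → ZMod 2) * (3 * Fintype.card ρ * 2 ^ Fintype.card ρ) + c) := by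
  intro x S hx
  let φ : (Fin k → N → ZMod 2) × (ρ → ZMod 2) ≃ (J → ZMod 2) :=
    { toFun := fun p j => Sum.elim (fun r : Fin k × N => p.1 r.1 r.2) p.2 (e j)
      invFun := fun f => (fun j i => f (e.symm (.inl (j, i))), fun r => f (e.symm (.inr r)))
      left_inv := fun p => by simp
      right_inv := fun f => by
        funext j
        obtain ⟨s, rfl⟩ := e.symm.surjective j
        rcases s with s | s <;> simp }
  have key : ∀ g b, app (Cpow J) x (φ (g, b)) =
      app (Dq k wt) (fun g' => app (Cpow ρ) (fun b' => x (φ (g', b'))) b) g := by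
    intro g b
    simp only [app]
    rw [← φ.sum_comp, Fintype.sum_prod_type]
    refine sum_congr rfl fun g' _ => ?_
    rw [smul_sum]
    refine sum_congr rfl fun b' _ => ?_
    rw [← mul_smul]
    congr 1
    simp only [Dq, Kq_wt, Cpow, tens]
    rw [← e.symm.prod_comp, Fintype.prod_sum_type, Fintype.prod_prod_type]
    simp [φ]
  refine (fam (a := fun g' => app (Cpow ρ) (fun b' => x (φ (g', b')))) fun g' T hT =>
    cost_naive ρ _ T fun b' => hT (hx _)).seq fun S1 _ a1 => ?_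
  refine (hb (fun b g' => app (Cpow ρ) (fun b' => x (φ (g', b'))) b) S1 fun b g' => a1 g' b).mono
    le_rfl fun T _ _ h f => ?_
  obtain ⟨⟨g, b⟩, rfl⟩ := φ.surjective f
  rw [key]
  exact h b g

noncomputable def mu (w : ℕ) : ℝ := 225 - 1 / 2 ^ (w + 225)

lemma novh_nonneg : 0 ≤ novh I := by unfold novh ovh; positivity
lemma mu_lt (w : ℕ) : mu w < 225 := by
  have : (0 : ℝ) < 1 / 2 ^ (w + 225) := by positivity
  unfold mu; linarith
lemma mu_ge (w : ℕ) : 224 ≤ mu w := by
  have : (1 : ℝ) / 2 ^ (w + 225) ≤ 1 := by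
    rw [div_le_one (by positivity)]; exact one_le_pow₀ (by norm_num)
  unfold mu; linarith

lemma fast_step (hI : Fintype.card I = 15) (ww : ℕ) (hw : Fintype.card (Wr I) = ww) (KK : ℝ)
    (hK : KK = novh I + 3 * (ww + 225))
    {k : ℕ} {τ : ℝ} (hτ : 0 ≤ τ) (hF : Fast M k τ) : Fast M (225 * k) (mu ww * τ + KK) := by
  intro J _ _ hJ
  have hm := mu_ge ww
  have hn := novh_nonneg (I := I)
  by_cases hs : Fintype.card J ≤ ww + 225
  · refine (cost_naive J).mono ?_
    have : (Fintype.card J : ℝ) ≤ ww + 225 := by exact_mod_cast hs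
    apply mul_le_mul_of_nonneg_right _ (by positivity)
    nlinarith
  obtain ⟨k', hk'⟩ : ∃ k', k' = (Fintype.card J - ww) / 225 := ⟨_, rfl⟩
  obtain ⟨r, hr⟩ : ∃ r, r = Fintype.card J - 225 * k' := ⟨_, rfl⟩
  have h1 : ww ≤ r := by omega
  have h2 : r ≤ ww + 225 := by omega
  have h3 : k' ≤ k := by omega
  have h4 : Fintype.card J = 225 * k' + r := by omega
  let e : J ≃ (Fin k' × (I × I)) ⊕ Fin r := Fintype.equivOfCardEq (by simp [h4, hI]; ring)
  have hα : Fintype.card (Wr I) ≤ Fintype.card (Fin r → ZMod 2) := by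
    simp only [Fintype.card_pi, ZMod.card, prod_const, card_univ, Fintype.card_fin]
    exact (hw.le.trans (h1.trans Nat.lt_two_pow_self.le))
  refine (split_cost e (batch hI hτ (hF.mono h3 le_rfl) hα)).mono ?_
  have c1 : (Fintype.card (Fin k' → I × I → ZMod 2) : ℝ) = 2 ^ (225 * k') := by
    simp only [Fintype.card_pi, ZMod.card, prod_const, card_univ, Fintype.card_fin,
      Fintype.card_prod, hI, pow_mul]
    norm_num
  have c2 : (Fintype.card (Fin r → ZMod 2) : ℝ) = 2 ^ r := by simp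
  rw [c1, c2, h4, pow_add, Fintype.card_fin]
  obtain ⟨n, hn'⟩ : ∃ n : ℝ, n = 2 ^ (225 * k') := ⟨_, rfl⟩
  have hn0 : 0 < n := by rw [hn']; positivity
  rw [← hn']
  have p1 : (1 : ℝ) ≤ 2 ^ r := one_le_pow₀ (by norm_num)
  have p2 : (1 : ℝ) / 2 ^ (ww + 225) * 2 ^ r ≤ 1 := by
    rw [div_mul_eq_mul_div, one_mul, div_le_one (by positivity)]
    exact pow_le_pow_right₀ (by norm_num) h2
  have p3 : (r : ℝ) ≤ ww + 225 := by exact_mod_cast h2
  have p4 : (225 * 2 ^ r - 1) * (τ * n) ≤ mu ww * τ * (n * 2 ^ r) := by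
    have : (225 * 2 ^ r - 1 : ℝ) ≤ mu ww * 2 ^ r := by unfold mu; linarith
    have := mul_le_mul_of_nonneg_right this (show 0 ≤ τ * n by positivity)
    linarith
  have p5 : novh I * n ≤ novh I * (n * 2 ^ r) := by
    apply mul_le_mul_of_nonneg_left _ hn; nlinarith
  have p6 : n * (3 * r * 2 ^ r) ≤ 3 * (ww + 225) * (n * 2 ^ r) := by
    have := mul_le_mul_of_nonneg_right p3 (show 0 ≤ n * 2 ^ r by positivity)
    linarith
  rw [hK]
  linarith

lemma fast_pow {m KK : ℝ} (hK : 0 ≤ KK) (hm : 224 ≤ m)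
    (hs : ∀ {k : ℕ} {τ : ℝ}, 0 ≤ τ → Fast M k τ → Fast M (225 * k) (m * τ + KK))
    (t : ℕ) : Fast M (225 ^ t) ((3 + KK) * m ^ t - KK) := by
  induction t with
  | zero => simpa using fast_naive (M := M) 1
  | succ t ih =>
    have h1 : 1 ≤ m ^ t := one_le_pow₀ (by linarith)
    refine (hs (by nlinarith) ih).mono (by rw [pow_succ, mul_comm]) ?_
    rw [pow_succ]
    nlinarith

lemma fast_all_aux {m KK : ℝ} (hK : 0 ≤ KK) (hm : 224 ≤ m) (hm' : m < 225)
    (hs : ∀ {k : ℕ} {τ : ℝ}, 0 ≤ τ → Fast M k τ → Fast M (225 * k) (m * τ + KK))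
    (l : ℕ) (hl : 1 ≤ l) : Fast M l (225 * (3 + KK) * (l : ℝ) ^ (Real.log m / Real.log 225)) := by
  refine (fast_pow hK hm hs (Nat.clog 225 l)).mono (Nat.le_pow_clog (by norm_num) l) ?_
  set gam := Real.log m / Real.log 225 with hg
  have gam_pos : 0 < gam := div_pos (Real.log_pos (by linarith)) (Real.log_pos (by norm_num))
  have h1 : 225 ^ Nat.clog 225 l ≤ 225 * l := by
    rcases hl.eq_or_lt with rfl | h
    · simp
    · have := Nat.pow_pred_clog_lt_self (b := 225) (by norm_num) h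
      have h2 : 0 < Nat.clog 225 l := Nat.clog_pos (by norm_num) h
      obtain ⟨s, hs⟩ : ∃ s, Nat.clog 225 l = s + 1 := ⟨_, (Nat.succ_pred_eq_of_pos h2).symm⟩
      rw [hs] at this ⊢
      simp only [Nat.pred_succ] at this
      rw [pow_succ]; omega
  have h2 : m = (225 : ℝ) ^ gam := by
    rw [Real.rpow_def_of_pos (by norm_num), hg, mul_div_cancel₀ _ (Real.log_pos (by norm_num)).ne',
      Real.exp_log (by linarith)]
  have h3 : m ^ Nat.clog 225 l ≤ 225 * (l : ℝ) ^ gam := by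
    have h4 : (225 : ℝ) ^ Nat.clog 225 l ≤ 225 * l := by exact_mod_cast h1
    calc m ^ Nat.clog 225 l = ((225 : ℝ) ^ gam) ^ Nat.clog 225 l := by rw [← h2]
      _ = ((225 : ℝ) ^ Nat.clog 225 l) ^ gam := by
        rw [← Real.rpow_natCast, ← Real.rpow_mul (by norm_num), mul_comm gam,
          Real.rpow_mul (by norm_num), Real.rpow_natCast]
      _ ≤ (225 * l : ℝ) ^ gam := Real.rpow_le_rpow (by positivity) h4 gam_pos.le
      _ = 225 ^ gam * (l : ℝ) ^ gam := Real.mul_rpow (by norm_num) (by positivity)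
      _ ≤ _ := by
        apply mul_le_mul_of_nonneg_right _ (by positivity)
        rw [← h2]; exact hm'.le
  nlinarith

lemma fast_ex_aux (hI : Fintype.card I = 15) : ∃ γ C : ℝ, 0 < γ ∧ γ < 1 ∧ 1 ≤ C ∧
    ∀ (M : Type) [AddCommGroup M] [Module ℂ M] (l : ℕ), 1 ≤ l → Fast M l (C * (l : ℝ) ^ γ) := by
  obtain ⟨ww, hw⟩ : ∃ ww, Fintype.card (Wr I) = ww := ⟨_, rfl⟩
  have hn := novh_nonneg (I := I)
  have hK : 0 ≤ novh I + 3 * (ww + 225) := by positivity
  have h1 := mu_ge ww
  have h2 := mu_lt ww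
  refine ⟨Real.log (mu ww) / Real.log 225, 225 * (3 + (novh I + 3 * (ww + 225))),
    div_pos (Real.log_pos (by linarith)) (Real.log_pos (by norm_num)), ?_, by linarith,
    fun M _ _ l hl => fast_all_aux hK h1 h2 (fun hτ hF => fast_step hI ww hw _ rfl hτ hF) l hl⟩
  rw [div_lt_one (Real.log_pos (by norm_num))]
  exact Real.log_lt_log (by linarith) h2

lemma fast_ex : ∃ γ C : ℝ, 0 < γ ∧ γ < 1 ∧ 1 ≤ C ∧
    ∀ (M : Type) [AddCommGroup M] [Module ℂ M] (l : ℕ), 1 ≤ l → Fast M l (C * (l : ℝ) ^ γ) :=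
  fast_ex_aux (I := Fin 15) (Fintype.card_fin 15)

end Vale.Agent.P344
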