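import Vale.Agent.P344.Gadget
import Vale.Agent.P344.Rec

open Finset Filter

namespace Vale.Agent.P344

set_option linter.unusedSectionVars false

variable {M : Type} [AddCommGroup M] [Module ℂ M]

lemma tens_batch {l : ℕ} {τ : ℝ} (hτ : 0 ≤ τ) (hF : Fast M l τ) (q : Fin l → ℕ) [∀ j, NeZero (q j)]
    {T : ℕ} (hT : ∀ j, Lay T (A6 (q j))) {α : Type} [Fintype α] (hα : 6 ^ l ≤ Fintype.card α)
    (x : α → (∀ j, ZMod (q j)) → M) (S : Set M) (hx : ∀ b, In (x b) S) :
    Can S (2 * T * (τ + 1) * (Fintype.card α * Fintype.card (∀ j, ZMod (q j))))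
      (fun U => ∀ b, In (app (tens fun j => FZ (q j)) (x b)) U) := by
  classical
  have hc := cost_tens_Lay hτ hF (J := Fin l) (by simp) T (fun j => A6 (q j)) hT
  let φ : (Fin l → B6) × (∀ j, ZMod (q j)) ≃ ∀ j, B6 × ZMod (q j) :=
    { toFun := fun p j => (p.1 j, p.2 j)
      invFun := fun f => (fun j => (f j).1, fun j => (f j).2)
      left_inv := fun p => rfl
      right_inv := fun f => rfl }
  have key : ∀ (X : (∀ j, B6 × ZMod (q j)) → M) β g, app (tens fun j => A6 (q j)) X (φ (β, g)) =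
      app (tens fun j => FZ (q j)) (fun g' => X (φ (β, g'))) g := by
    intro X β g
    simp only [app]
    rw [← φ.sum_comp, Fintype.sum_prod_type, sum_eq_single β]
    · refine sum_congr rfl fun g' _ => ?_
      simp [tens, A6, φ]
    · intro β' _ hβ
      obtain ⟨j, hj⟩ := Function.ne_iff.1 hβ
      refine sum_eq_zero fun g' _ => ?_
      have : (tens fun j => A6 (q j)) (φ (β, g)) (φ (β', g')) = 0 :=
        prod_eq_zero (mem_univ j) (by simp [A6, φ, hj])
      rw [this, zero_smul]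
    · simp
  have c6 : Fintype.card (Fin l → B6) = 6 ^ l := by simp
  have p6 : 0 < 6 ^ l := by positivity
  obtain ⟨t, ht⟩ : ∃ t, t = Fintype.card α / 6 ^ l + 1 := ⟨_, rfl⟩
  have ht1 : Fintype.card α ≤ t * 6 ^ l := by
    rw [ht, mul_comm]; exact (Nat.lt_mul_div_succ _ p6).le
  have ht2 : t * 6 ^ l ≤ 2 * Fintype.card α := by
    rw [ht, add_mul]; have := Nat.div_mul_le_self (Fintype.card α) (6 ^ l); omega
  obtain ⟨e⟩ : Nonempty (α ↪ Fin t × (Fin l → B6)) :=
    Function.Embedding.nonempty_of_card_le (by rw [Fintype.card_prod, c6, Fintype.card_fin]; exact ht1)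
  let X : Fin t → (∀ j, B6 × ZMod (q j)) → M := fun r f =>
    Function.extend e x 0 (r, (φ.symm f).1) (φ.symm f).2
  refine ((Can.zero (S := S) (P := fun U => 0 ∈ U) fun _ _ h => h).seq fun S1 s1 h0 =>
    fam (a := fun r => app (tens fun j => A6 (q j)) (X r)) fun r U hU => hc (X r) U ?_).mono ?_ ?_
  · intro f
    simp only [X]
    by_cases h : ∃ b, e b = (r, (φ.symm f).1)
    · obtain ⟨b, hb⟩ := h
      rw [← hb, e.injective.extend_apply]
      exact hU (s1 (hx b _))
    · rw [Function.extend_apply' _ _ _ h]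
      exact hU h0
  · rw [← Fintype.card_congr φ, Fintype.card_prod, c6, Fintype.card_fin]
    have : ((t * 6 ^ l : ℕ) : ℝ) ≤ ((2 * Fintype.card α : ℕ) : ℝ) := Nat.cast_le.2 ht2
    push_cast at this ⊢
    have h2 : (0 : ℝ) ≤ T * (τ + 1) * Fintype.card (∀ j, ZMod (q j)) := by positivity
    nlinarith
  · intro U _ _ h b g
    have := h (e b).1 (φ ((e b).2, g))
    rw [key] at this
    simp only [X, Equiv.symm_apply_apply, Prod.mk.eta, e.injective.extend_apply] at this
    exact this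

lemma cost_kron {ι κ : Type} [Fintype ι] [Fintype κ] (A : Matrix ι ι ℂ) (B : Matrix κ κ ℂ) {c d : ℝ}
    (hA : ∀ (x : κ → ι → M) (S : Set M), (∀ b, In (x b) S) → Can S c fun U => ∀ b, In (app A (x b)) U)
    (hB : ∀ (x : ι → κ → M) (S : Set M), (∀ b, In (x b) S) → Can S d fun U => ∀ b, In (app B (x b)) U) :
    Cost M (kron A B) (d + c) := by
  intro x S hx
  refine (hB (fun a b => x (a, b)) S fun a b => hx _).seq fun S1 _ h1 => ?_
  refine (hA (fun b a => app B (fun b => x (a, b)) b) S1 fun b a => h1 a b).mono le_rfl ?_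
  rintro U _ _ h ⟨a, b⟩
  have := h b a
  convert this using 1
  simp only [app, kron, smul_sum, ← mul_smul]
  rw [Fintype.sum_prod_type]

lemma cost_dft {G : Type} [AddCommGroup G] [Fintype G] {B : Matrix G G ℂ} (hB : IsDual B) {c : ℝ}
    (hc : Cost M B c) {n N : ℕ} [NeZero N] (ε : ZMod N ≃+ G) (h : 2 * n ≤ N) :
    Cost M (dftM n) (2 * c + 4 * N) := by
  classical
  intro x S hx
  let j : Fin n → G := fun k => ε (k.val : ZMod N)
  have hj : Function.Injective j := by
    intro u v huv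
    have := congrArg ZMod.val (ε.injective huv)
    have h1 := u.2
    have h2 := v.2
    rw [ZMod.val_natCast_of_lt (by omega), ZMod.val_natCast_of_lt (by omega)] at this
    exact Fin.ext this
  have hG : (Fintype.card G : ℝ) = N := by rw [← Fintype.card_congr ε.toEquiv, ZMod.card]
  have hn : (2 * n : ℝ) ≤ N := by exact_mod_cast h
  let X : G → M := Function.extend j (fun k => psi n k.val • x k) 0
  let κ : G → ℂ := fun g => kap n N (ε.symm g)
  let d : G → ℂ := fun ξ => ∑ u, κ u * B ξ u + 0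
  refine ((Can.arr_smul (fun k : Fin n => psi n k.val) x hx).mono (Q := In X) le_rfl ?_).seq'
    fun S1 _ h1 => ?_
  · intro U _ h0 h g
    by_cases hg : ∃ k, j k = g
    · obtain ⟨k, rfl⟩ := hg
      simp only [X, hj.extend_apply]; exact h k
    · simp only [X]; rw [Function.extend_apply' _ _ _ hg]; exact h0
  refine (hc X S1 h1).seq' fun S2 _ h2 => ?_
  refine (Can.arr_smul d _ h2).seq' fun S3 _ h3 => ?_
  refine (hc _ S3 h3).seq' fun S4 _ h4 => ?_
  refine (Can.arr_smul (fun _ : G => (Fintype.card G : ℂ)⁻¹) _ (fun g => h4 (-g))).seq'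
    fun S5 _ h5 => ?_
  refine (Can.arr_smul (fun k : Fin n => psi n k.val) _ (fun k => h5 (j k))).mono ?_ ?_
  · rw [hG, Fintype.card_fin]; linarith
  · intro U _ _ h6 k
    have e : Kop B d X (j k) = _ := hB.Kop_conv κ 0 X (j k)
    have := h6 k
    simp only at this
    change psi n k.val • Kop B d X (j k) ∈ U at this
    rw [e, zero_smul, add_zero] at this
    convert this using 1
    have e2 : ∑ g', κ (j k - g') • X g' = ∑ v, κ (j k - j v) • psi n v.val • x v := by
      symm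
      apply Finset.sum_of_injOn j hj.injOn (fun _ _ => mem_univ _)
      · intro g _ hg
        simp only [X]
        rw [Function.extend_apply' _ _ _ (fun ⟨v, hv⟩ => hg ⟨v, by simp, hv⟩)]; simp
      · intro v _; simp only [X]; rw [hj.extend_apply]
    rw [e2, smul_sum, app]
    refine sum_congr rfl fun v _ => ?_
    rw [← mul_smul, ← mul_smul]
    congr 1
    have := bluestein h k.2 v.2
    simp only [κ, j, ← map_sub, AddEquiv.symm_apply_apply]
    rw [mul_assoc, ← this]; rfl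

def qq (K i : ℕ) : ℕ := (i + 1) * K + 1

instance (K i : ℕ) : NeZero (qq K i) := ⟨Nat.succ_ne_zero _⟩

lemma qq_coprime {m K i j : ℕ} (hK : m.factorial ∣ K) (hi : i < m) (hj : j < m) (hij : i ≠ j) :
    (qq K i).Coprime (qq K j) := by
  rcases lt_or_gt_of_ne hij with h | h
  · exact Nat.coprime_mul_succ ((Nat.dvd_factorial (by omega) (by omega)).trans hK)
  · exact (Nat.coprime_mul_succ ((Nat.dvd_factorial (by omega) (by omega)).trans hK)).symm

lemma lay_qq {l K i : ℕ} (hi : i < 2 * l) :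
    Lay (216 * Nat.clog 2 (2 * (2 * l * K + 1)) + 279) (A6 (qq K i)) := by
  apply lay_A6 (qq K i) (Nat.clog 2 (2 * qq K i)) (Nat.le_pow_clog (by norm_num) _)
  · have h1 : 1 < 2 * qq K i := by unfold qq; omega
    have := Nat.pow_pred_clog_lt_self (b := 2) (by norm_num) h1
    have h2 : 0 < Nat.clog 2 (2 * qq K i) := Nat.clog_pos (by norm_num) h1
    obtain ⟨s, hs⟩ : ∃ s, Nat.clog 2 (2 * qq K i) = s + 1 := ⟨_, (Nat.succ_pred_eq_of_pos h2).symm⟩
    rw [hs] at this ⊢
    simp only [Nat.pred_succ] at this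
    rw [pow_succ]; omega
  · have : qq K i ≤ 2 * l * K + 1 := by unfold qq; nlinarith
    have := Nat.clog_mono_right 2 (Nat.mul_le_mul_left 2 this)
    omega

def NN (l K : ℕ) : ℕ := ∏ i ∈ range (2 * l), qq K i

lemma cost_main {l K n : ℕ} {τ : ℝ} (hτ : 0 ≤ τ) (hF : Fast M l τ) (hK : (2 * l).factorial ∣ K)
    (hK5 : 5 ≤ K) (h : 2 * n ≤ NN l K) :
    Cost M (dftM n) (8 * (216 * Nat.clog 2 (2 * (2 * l * K + 1)) + 279 : ℕ) * (τ + 1) * NN l K
      + 4 * NN l K) := by
  let qa : Fin l → ℕ := fun i => qq K i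
  let qb : Fin l → ℕ := fun i => qq K (l + i)
  have hN : NN l K = (∏ i, qa i) * ∏ i, qb i := by
    rw [NN, two_mul, prod_range_add, Fin.prod_univ_eq_prod_range (fun i => qq K i),
      Fin.prod_univ_eq_prod_range (fun i => qq K (l + i))]
  have ca : Pairwise (Function.onFun Nat.Coprime qa) := fun i j hij =>
    qq_coprime hK (by omega) (by omega) (fun h => hij (Fin.ext h))
  have cb : Pairwise (Function.onFun Nat.Coprime qb) := fun i j hij =>
    qq_coprime hK (by omega) (by omega) (fun h => hij (Fin.ext (by omega)))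
  have cab : (∏ i, qa i).Coprime (∏ i, qb i) :=
    Nat.Coprime.prod_left fun i _ => Nat.Coprime.prod_right fun j _ =>
      qq_coprime hK (by omega) (by omega) (by omega)
  have six : ∀ f : Fin l → ℕ, 6 ^ l ≤ Fintype.card (∀ j, ZMod (qq K (f j))) := by
    intro f
    simp only [Fintype.card_pi, ZMod.card]
    calc 6 ^ l = ∏ _i : Fin l, 6 := by simp
      _ ≤ _ := prod_le_prod' fun i _ => by unfold qq; nlinarith
  have hk := cost_kron (M := M) (tens fun j => FZ (qa j)) (tens fun j => FZ (qb j))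
    (tens_batch hτ hF qa (fun j => lay_qq (l := l) (by omega)) (six fun i => l + i))
    (tens_batch hτ hF qb (fun j => lay_qq (l := l) (by omega)) (six fun i => i))
  have hD := isDual_kron (isDual_tens fun j => isDual_FZ (qa j)) (isDual_tens fun j => isDual_FZ (qb j))
  rw [hN] at h ⊢
  have : NeZero ((∏ i, qa i) * ∏ i, qb i) :=
    ⟨mul_ne_zero (prod_ne_zero_iff.2 fun i _ => NeZero.ne _) (prod_ne_zero_iff.2 fun i _ => NeZero.ne _)⟩
  let ε := (ZMod.chineseRemainder cab).toAddEquiv.trans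
    ((ZMod.prodEquivPi qa ca).toAddEquiv.prodCongr (ZMod.prodEquivPi qb cb).toAddEquiv)
  refine (cost_dft hD hk ε h).mono (le_of_eq ?_)
  simp only [Fintype.card_pi, ZMod.card, qa, qb]
  push_cast; ring

lemma exists_K (l n : ℕ) (hl : 1 ≤ l) (hn : 1 ≤ n) (h : 27 * (l : ℝ) ^ 3 ≤ Real.log n) :
    ∃ K, (2 * l).factorial ∣ K ∧ 5 ≤ K ∧ 2 * l + 1 ≤ K ∧ 2 * n ≤ NN l K ∧ NN l K ≤ 6 * n := by
  set f := (2 * l).factorial with hf
  have hf2 : 2 ≤ f := by
    calc 2 ≤ 2 * l := by omega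
      _ ≤ f := Nat.self_le_factorial _
  have hex : ∃ s, 2 * n ≤ NN l (s * f) := by
    refine ⟨2 * n, le_trans ?_ (single_le_prod' (f := fun i => qq (2 * n * f) i)
      (fun i _ => Nat.succ_pos _) (mem_range.2 (show 0 < 2 * l by omega)))⟩
    unfold qq; nlinarith
  classical
  set s := Nat.find hex with hs
  have hs1 : 2 * n ≤ NN l (s * f) := Nat.find_spec hex
  have hl' : (1 : ℝ) ≤ l := by exact_mod_cast hl
  have hsmall : NN l (2 * l * f) ≤ n := by
    have h1 : ∀ i ∈ range (2 * l), (qq (2 * l * f) i : ℝ) ≤ Real.exp (9 * l ^ 2) := by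
      intro i hi
      have hi' : (i : ℝ) + 1 ≤ 2 * l := by exact_mod_cast mem_range.1 hi
      have a1 : (2 * l : ℝ) ≤ Real.exp (2 * l) := by linarith [Real.add_one_le_exp (2 * l : ℝ)]
      have a2 : (f : ℝ) ≤ Real.exp (4 * l ^ 2) := by
        have : (f : ℝ) ≤ (2 * l) ^ (2 * l) := by exact_mod_cast Nat.factorial_le_pow (2 * l)
        refine this.trans ((pow_le_pow_left₀ (by positivity) a1 _).trans (le_of_eq ?_))
        rw [← Real.exp_nat_mul]; congr 1; push_cast; ring
      have a3 : ((i : ℝ) + 1) * (2 * l * f) ≤ Real.exp (2 * l) * (Real.exp (2 * l) * Real.exp (4 * l ^ 2)) := by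
        gcongr; exact hi'.trans a1
      rw [← Real.exp_add, ← Real.exp_add] at a3
      have a4 : Real.exp (2 * l + (2 * l + 4 * l ^ 2)) ≤ Real.exp (8 * l ^ 2) :=
        Real.exp_le_exp.2 (by nlinarith)
      have a5 : Real.exp (9 * l ^ 2) = Real.exp (8 * l ^ 2) * Real.exp (l ^ 2) := by
        rw [← Real.exp_add]; congr 1; ring
      have a6 : 2 ≤ Real.exp (l ^ 2) := by nlinarith [Real.add_one_le_exp ((l : ℝ) ^ 2)]
      have a7 : 1 ≤ Real.exp (8 * l ^ 2) := Real.one_le_exp (by positivity)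
      unfold qq; push_cast
      nlinarith
    have h2 : (NN l (2 * l * f) : ℝ) ≤ Real.exp (9 * l ^ 2) ^ (2 * l) := by
      unfold NN; push_cast
      calc _ ≤ ∏ _i ∈ range (2 * l), Real.exp (9 * l ^ 2) :=
            prod_le_prod (fun _ _ => by positivity) h1
        _ = _ := by simp
    rw [← Real.exp_nat_mul] at h2
    have h3 : Real.exp (((2 * l : ℕ) : ℝ) * (9 * l ^ 2)) ≤ n := by
      rw [← Real.exp_log (show (0 : ℝ) < n by exact_mod_cast hn)]
      apply Real.exp_le_exp.2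
      push_cast
      nlinarith [pow_pos (show (0 : ℝ) < l by linarith) 3]
    exact_mod_cast h2.trans h3
  have hmono : ∀ a b, a ≤ b → NN l (a * f) ≤ NN l (b * f) := fun a b hab =>
    prod_le_prod' fun i _ => by unfold qq; gcongr
  have hs2 : 2 * l < s := by
    by_contra hc
    have := hmono s (2 * l) (not_lt.1 hc)
    omega
  obtain ⟨r, hr⟩ : ∃ r, s = r + 1 := ⟨s - 1, by omega⟩
  have hr1 : NN l (r * f) < 2 * n := not_le.1 (Nat.find_min hex (by omega))
  refine ⟨s * f, Dvd.intro_left _ rfl, by nlinarith, by nlinarith, hs1, ?_⟩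
  have hr2 : (2 * l : ℝ) ≤ r := by exact_mod_cast (show 2 * l ≤ r by omega)
  have h1 : ∀ i ∈ range (2 * l), (qq (s * f) i : ℝ) ≤ Real.exp (1 / (2 * l)) * qq (r * f) i := by
    intro i _
    have a1 := Real.add_one_le_exp (1 / (2 * l) : ℝ)
    have a2 : (1 : ℝ) ≤ 1 / (2 * l) * r := by rw [one_div, ← div_eq_inv_mul, le_div_iff₀ (by positivity)]; linarith
    refine le_trans ?_ (mul_le_mul_of_nonneg_right a1 (by positivity))
    unfold qq; rw [hr]; push_cast
    have a3 : (0 : ℝ) ≤ (i + 1) * f := by positivity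
    have a4 : (0 : ℝ) ≤ 1 / (2 * l) := by positivity
    nlinarith
  have h2 : (NN l (s * f) : ℝ) ≤ Real.exp 1 * NN l (r * f) := by
    unfold NN; push_cast
    refine (prod_le_prod (fun _ _ => by positivity) h1).trans (le_of_eq ?_)
    rw [prod_mul_distrib, prod_const, card_range, ← Real.exp_nat_mul]
    congr 2; push_cast; field_simp
  have h3 : (NN l (r * f) : ℝ) ≤ 2 * n := by exact_mod_cast hr1.le
  have h4 := Real.exp_one_lt_d9
  have h5 : (NN l (s * f) : ℝ) ≤ 6 * n := by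
    have : (0 : ℝ) ≤ NN l (r * f) := Nat.cast_nonneg _
    nlinarith
  exact_mod_cast h5

lemma layers_le {l K : ℕ} (hl : 1 ≤ l) (hK5 : 5 ≤ K) (hK : 2 * l + 1 ≤ K) :
    ((216 * Nat.clog 2 (2 * (2 * l * K + 1)) + 279 : ℕ) : ℝ) ≤ 1143 * (Real.log (NN l K) / l) ∧
      1 ≤ Real.log (NN l K) / l := by
  have hl' : (1 : ℝ) ≤ l := by exact_mod_cast hl
  have hK' : (5 : ℝ) ≤ K := by exact_mod_cast hK5
  have h1 : K ^ (2 * l) ≤ NN l K := by
    calc K ^ (2 * l) = ∏ _i ∈ range (2 * l), K := by simp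
      _ ≤ _ := prod_le_prod' fun i _ => by unfold qq; nlinarith
  have h2 : 2 * Real.log K ≤ Real.log (NN l K) / l := by
    rw [le_div_iff₀ (by linarith)]
    have : ((K : ℝ)) ^ (2 * l) ≤ NN l K := by exact_mod_cast h1
    have := Real.log_le_log (by positivity) this
    rw [Real.log_pow] at this
    push_cast at this; linarith
  have h3 : 1 ≤ Real.log K := by
    rw [Real.le_log_iff_exp_le (by linarith)]; linarith [Real.exp_one_lt_d9]
  refine ⟨?_, by linarith⟩
  have h4 : 1 < 2 * (2 * l * K + 1) := by omega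
  have h5 := Nat.pow_pred_clog_lt_self (b := 2) (by norm_num) h4
  have h6 : 0 < Nat.clog 2 (2 * (2 * l * K + 1)) := Nat.clog_pos (by norm_num) h4
  obtain ⟨s, hs⟩ : ∃ s, Nat.clog 2 (2 * (2 * l * K + 1)) = s + 1 :=
    ⟨_, (Nat.succ_pred_eq_of_pos h6).symm⟩
  rw [hs] at h5 ⊢
  simp only [Nat.pred_succ] at h5
  have h7 : 2 ^ s ≤ 2 * K ^ 2 := by nlinarith
  have h8 : (2 : ℝ) ^ s ≤ 2 * K ^ 2 := by exact_mod_cast h7
  have h9 := Real.log_le_log (by positivity) h8
  rw [Real.log_pow, Real.log_mul (by norm_num) (by positivity), Real.log_pow] at h9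
  have h10 := Real.log_two_gt_d9
  have h11 : (s : ℝ) ≤ 1 + 4 * Real.log K := by
    by_contra hc
    push_cast at h9
    nlinarith
  push_cast
  linarith

theorem upper : ∃ δ : ℝ, 0 < δ ∧ ∃ C : ℝ, ∀ᶠ n : ℕ in atTop,
    (dftCost n : ℝ) ≤ C * n * Real.log n ^ (1 - δ) := by
  obtain ⟨γ, C, hγ0, hγ1, hC, hF⟩ := fast_ex
  refine ⟨(1 - γ) / 3, by linarith, 72 * (16 * 1143 * C + 4), ?_⟩
  have hL : Tendsto (fun n : ℕ => Real.log n) atTop atTop :=
    Real.tendsto_log_atTop.comp tendsto_natCast_atTop_atTop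
  filter_upwards [hL.eventually_ge_atTop 27, eventually_ge_atTop 6] with n h27 h6
  set L := Real.log n with hLd
  set y := L ^ (1 / 3 : ℝ) with hy
  have hy0 : 0 < y := Real.rpow_pos_of_pos (by linarith) _
  have hy3 : y ^ 3 = L := by
    rw [hy, ← Real.rpow_natCast, ← Real.rpow_mul (by linarith)]; norm_num
  have hy1 : 3 ≤ y := by
    by_contra hc
    have : y ^ 3 < 3 ^ 3 := pow_lt_pow_left₀ (not_le.1 hc) hy0.le (by norm_num)
    linarith
  set l := ⌊y / 3⌋₊ with hl
  have hl1 : 1 ≤ l := Nat.le_floor (by push_cast; linarith)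
  have hl1' : (1 : ℝ) ≤ l := by exact_mod_cast hl1
  have hl2 : (l : ℝ) ≤ y / 3 := Nat.floor_le (by positivity)
  have hl3 : y / 6 ≤ l := by have := Nat.lt_floor_add_one (y / 3); linarith
  obtain ⟨K, k1, k2, k3, k4, k5⟩ := exists_K l n hl1 (by omega) (by
    have : (3 * l : ℝ) ^ 3 ≤ y ^ 3 := pow_le_pow_left₀ (by positivity) (by linarith) 3
    rw [← hLd]; linarith)
  have hp : 1 ≤ (l : ℝ) ^ γ := Real.one_le_rpow hl1' hγ0.le
  have hc := dftCost_le (cost_main (by positivity) (hF _ l hl1) k1 k2 k4)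
  obtain ⟨t1, t2⟩ := layers_le hl1 k2 k3
  set T : ℝ := ((216 * Nat.clog 2 (2 * (2 * l * K + 1)) + 279 : ℕ) : ℝ)
  set N : ℝ := ((NN l K : ℕ) : ℝ) with hN
  have n6 : (6 : ℝ) ≤ n := by exact_mod_cast h6
  have N1 : N ≤ 6 * n := by rw [hN]; exact_mod_cast k5
  have N0 : 2 * n ≤ N := by rw [hN]; exact_mod_cast k4
  have N2 : Real.log N ≤ 2 * L := by
    have : Real.log N ≤ Real.log (n ^ 2) := Real.log_le_log (by linarith) (by nlinarith)
    rw [Real.log_pow] at this; exact_mod_cast this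
  set R := Real.log N / l
  have b1 : 8 * T * (C * l ^ γ + 1) * N + 4 * N ≤ (16 * 1143 * C + 4) * (R * l ^ γ) * N := by
    have c1 : C * l ^ γ + 1 ≤ 2 * C * l ^ γ := by nlinarith
    have c2 : T * (C * l ^ γ + 1) ≤ 1143 * R * (2 * C * l ^ γ) :=
      mul_le_mul t1 c1 (by positivity) (by positivity)
    have c3 : 1 ≤ R * l ^ γ := by nlinarith
    have : 8 * T * (C * l ^ γ + 1) + 4 ≤ (16 * 1143 * C + 4) * (R * l ^ γ) := by nlinarith
    nlinarith
  have b2 : R * l ^ γ ≤ 12 * L ^ (1 - (1 - γ) / 3) := by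
    have c1 : R * l ^ γ = Real.log N * (l : ℝ) ^ (γ - 1) := by
      rw [Real.rpow_sub_one (by linarith)]; simp only [R]; ring
    have c2 : (l : ℝ) ^ (γ - 1) ≤ (y / 6) ^ (γ - 1) :=
      Real.rpow_le_rpow_of_nonpos (by positivity) hl3 (by linarith)
    have c3 : (y / 6) ^ (γ - 1) ≤ 6 * y ^ (γ - 1) := by
      rw [Real.div_rpow hy0.le (by norm_num), div_le_iff₀ (by positivity)]
      have : (6 : ℝ) ^ (-1 : ℝ) ≤ 6 ^ (γ - 1) :=
        Real.rpow_le_rpow_of_exponent_le (by norm_num) (by linarith)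
      rw [Real.rpow_neg_one] at this
      have h0 : 0 < y ^ (γ - 1) := by positivity
      nlinarith
    have c4 : L * y ^ (γ - 1) = L ^ (1 - (1 - γ) / 3) := by
      rw [hy, ← Real.rpow_mul (by linarith), ← Real.rpow_one_add' (by linarith) (by linarith)]
      congr 1; ring
    rw [c1, ← c4]
    calc _ ≤ (2 * L) * (6 * y ^ (γ - 1)) :=
          mul_le_mul N2 (c2.trans c3) (by positivity) (by positivity)
      _ = _ := by ring
  calc _ ≤ _ := hc
    _ ≤ _ := b1
    _ ≤ (16 * 1143 * C + 4) * (12 * L ^ (1 - (1 - γ) / 3)) * (6 * n) := by gcongr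
    _ = _ := by ring

theorem no_lower : ¬ ∃ c : ℝ, 0 < c ∧ ∀ᶠ n : ℕ in atTop, c * n * Real.logb 2 n ≤ dftCost n := by
  rintro ⟨c, hc, h⟩
  obtain ⟨δ, hδ, C, hC⟩ := upper
  have hL : Tendsto (fun n : ℕ => Real.log n) atTop atTop :=
    Real.tendsto_log_atTop.comp tendsto_natCast_atTop_atTop
  have h2 := ((tendsto_rpow_atTop hδ).comp hL).eventually_gt_atTop (C / c)
  obtain ⟨n, h1, h3, h4, h5⟩ := (h.and (hC.and (h2.and (eventually_ge_atTop 2)))).exists
  have n2 : (1 : ℝ) < n := by exact_mod_cast h5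
  have hl : 0 < Real.log n := Real.log_pos n2
  simp only [Function.comp] at h4
  rw [div_lt_iff₀ hc] at h4
  have e : Real.log n = Real.log n ^ δ * Real.log n ^ (1 - δ) := by
    rw [← Real.rpow_add hl]; simp
  have h6 : Real.log n ≤ Real.logb 2 n := by
    rw [Real.logb, le_div_iff₀ (Real.log_pos (by norm_num))]
    nlinarith [Real.log_two_lt_d9]
  have h7 : c * n * Real.log n ≤ C * n * Real.log n ^ (1 - δ) :=
    le_trans (by gcongr) (h1.trans h3)
  have h8 : 0 < n * Real.log n ^ (1 - δ) := by positivity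
  rw [e] at h7
  rw [← e] at h7
  have : c * n * (Real.log n ^ δ * Real.log n ^ (1 - δ)) ≤ C * n * Real.log n ^ (1 - δ) := by
    rw [← e]; exact h7
  nlinarith

end Vale.Agent.P344
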