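import Vale.Agent.P344.Frame

open Finset

namespace Vale.Agent.P344

set_option linter.unusedSectionVars false

variable {M : Type} [AddCommGroup M] [Module ℂ M]
variable {N : Type} [Fintype N] [DecidableEq N]
variable {I : Type} [Fintype I] [DecidableEq I]

abbrev Tri (I : Type) := {S : Finset I // S.card = 3}
abbrev Pr (I : Type) [DecidableEq I] := {p : Tri I × Tri I // Even (p.1.1 ∩ p.2.1).card}

noncomputable def RR (S : Tri I) (i : I) : ℂ := (if i ∈ S.1 then 1 / 2 else 0) - 1 / 6
noncomputable def GG (i : I) (T : Tri I) : ℂ := if i ∈ T.1 then 1 else 0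
noncomputable def ss (S : Tri I) (p : Pr I) : ℂ :=
  if p.1.1 = S then (1 - ((p.1.1.1 ∩ p.1.2.1).card : ℂ)) / 2 else 0

lemma ss_ne {S : Tri I} {p : Pr I} (h : ss S p ≠ 0) : p.1.1 = S := by
  by_contra h'; exact h (if_neg h')

lemma ident {V : Type} [AddCommGroup V] [Module ℂ V] (x : Tri I → V) (S : Tri I) :
    ∑ i, RR S i • ∑ T, GG i T • x T + ∑ p, ss S p • x p.1.2 = x S := by
  have h1 : ∑ p : Pr I, ss S p • x p.1.2 = ∑ T : Tri I,
      (if Even (S.1 ∩ T.1).card then (1 - ((S.1 ∩ T.1).card : ℂ)) / 2 else 0) • x T := by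
    have := Finset.sum_subtype (F := inferInstance)
      (univ.filter fun p : Tri I × Tri I => Even (p.1.1 ∩ p.2.1).card)
      (p := fun p : Tri I × Tri I => Even (p.1.1 ∩ p.2.1).card) (by simp)
      (fun p => (if p.1 = S then (1 - ((p.1.1 ∩ p.2.1).card : ℂ)) / 2 else 0) • x p.2)
    unfold ss
    rw [← this, sum_filter, Fintype.sum_prod_type, sum_eq_single S]
    · refine sum_congr rfl fun T _ => ?_
      split_ifs <;> simp_all
    · intro b _ hb; simp [hb]
    · simp
  rw [h1]
  simp only [smul_sum, ← mul_smul]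
  rw [sum_comm, ← sum_add_distrib]
  simp only [← sum_smul, ← add_smul]
  rw [sum_eq_single S]
  · have : ∑ i, RR S i * GG i S = 1 := by
      simp only [RR, GG, mul_ite, mul_one, mul_zero]
      rw [← sum_filter, filter_mem_eq_inter, univ_inter, sum_sub_distrib, sum_const, S.2,
        ← sum_filter, filter_mem_eq_inter, inter_self, sum_const, S.2]
      norm_num
    rw [this, inter_self, S.2, if_neg (by decide)]; simp
  · intro T _ hT
    have : ∑ i, RR S i * GG i T = (((S.1 ∩ T.1).card : ℂ) - 1) / 2 := by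
      simp only [RR, GG, mul_ite, mul_one, mul_zero]
      rw [← sum_filter, filter_mem_eq_inter, univ_inter, sum_sub_distrib, sum_const, T.2,
        ← sum_filter, filter_mem_eq_inter, sum_const, inter_comm]
      simp; ring
    rw [this]
    split_ifs with h
    · rw [show ∀ a : ℂ, (a - 1) / 2 + (1 - a) / 2 = 0 from fun a => by ring, zero_smul]
    · have h3 : (S.1 ∩ T.1).card ≤ 3 := (card_le_card inter_subset_left).trans S.2.le
      have h4 : (S.1 ∩ T.1).card ≠ 3 := by
        intro h4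
        apply hT
        have e1 : S.1 ∩ T.1 = S.1 := eq_of_subset_of_card_le inter_subset_left (by rw [h4, S.2])
        have e2 : S.1 ∩ T.1 = T.1 := eq_of_subset_of_card_le inter_subset_right (by rw [h4, T.2])
        exact Subtype.ext (e2.symm.trans e1)
      have h5 : (S.1 ∩ T.1).card = 1 := by
        rw [Nat.not_even_iff_odd] at h
        obtain ⟨c, hc⟩ := h
        omega
      rw [h5]; simp
  · simp

lemma app_add {ι κ : Type} [Fintype κ] (A : Matrix ι κ ℂ) (x y : κ → M) :
    app A (x + y) = app A x + app A y := by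
  funext i; simp [app, sum_add_distrib]

lemma app_smul {ι κ : Type} [Fintype κ] (A : Matrix ι κ ℂ) (c : ℂ) (x : κ → M) :
    app A (c • x) = c • app A x := by
  funext i; simp only [app, Pi.smul_apply, smul_sum]
  exact sum_congr rfl fun k _ => smul_comm _ _ _

lemma lin1 {ι J : Type} [Fintype ι] [Fintype J] (A : Matrix ι ι ℂ) {S : Set M} (c : J → ℂ)
    (a : J → ι → M) (h : ∀ j, c j ≠ 0 → In (app A (a j)) S) :
    Can S (Fintype.card ι * (2 * Fintype.card J)) (In (app A (∑ j, c j • a j))) := by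
  rw [app_sum]
  exact Can.arr_sum univ c _ fun j _ => h j

lemma addc {ι : Type} [Fintype ι] (A : Matrix ι ι ℂ) {S : Set M} (c : ℂ) {a b : ι → M}
    (ha : In (app A a) S) (hb : In (app A b) S) :
    Can S (Fintype.card ι * 2) (In (app A (a + c • b))) := by
  rw [app_add, app_smul]
  refine Can.forall (P := fun i T => (app A a + c • app A b) i ∈ T) (fun i T U hTU h => hTU h)
    fun i T hT => ?_
  refine ((Can.smul (hT (hb i)) c).seq (d := 1) fun U hU h1 => ?_).cost (by norm_num)
  exact Can.add (hU (hT (ha i))) h1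

lemma lin2 {ι J : Type} [Fintype ι] [Fintype J] (A : Matrix ι ι ℂ) {S : Set M} (e : ℂ) (c : J → ℂ)
    {b : ι → M} (a : J → ι → M) (hb : In (app A b) S) (h : ∀ j, c j ≠ 0 → In (app A (a j)) S) :
    Can S (Fintype.card ι * (2 * Fintype.card J + 2)) (In (app A (b + e • ∑ j, c j • a j))) :=
  ((lin1 A c a h).seq fun _ hT h1 => addc A e (hb.mono hT) h1).cost (le_of_eq (by ring))

lemma fam {ι J : Type} [Fintype J] {S : Set M} {c : ℝ} {a : J → ι → M}
    (h : ∀ j T, S ⊆ T → Can T c (In (a j))) :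
    Can S (Fintype.card J * c) (fun T => ∀ j, In (a j) T) :=
  Can.forall (fun _ _ _ hTU h => h.mono hTU) h

lemma Can.seq' {S : Set M} {c b : ℝ} {P R : Set M → Prop} (h : Can S c P)
    (h' : ∀ T, S ⊆ T → P T → Can T (b - c) R) : Can S b R :=
  (h.seq h').cost (le_of_eq (by ring))

attribute [local irreducible] app Dq

noncomputable def ovh (I : Type) [Fintype I] [DecidableEq I] : ℝ :=
  Fintype.card (Tri I) * (2 * Fintype.card (Pr I) + 2) * 2 + Fintype.card (Pr I) * 4 +
    Fintype.card I * (2 * Fintype.card (Tri I)) + Fintype.card (Tri I) * (2 * Fintype.card I + 2)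

noncomputable def mcost (I : Type) [Fintype I] [DecidableEq I] (g : ℕ) : ℝ :=
  2 * Fintype.card (Tri I) * (g + 1) + Fintype.card (Pr I) * (g + 2) + Fintype.card I * (g + 2)

set_option maxHeartbeats 400000 in
lemma motif_fwd {k : ℕ} {τ : ℝ} (hτ : 0 ≤ τ) (hF : Fast M k τ) {g : ℕ}
    (B E : (N → ZMod 2) → ZMod 4) (U : Tri I → (N → ZMod 2) → ZMod 4)
    (hE : Q (g + 2) E) (hU : ∀ S, Q 1 (U S)) (h1 : ∀ S, Q (g + 1) (E - U S))
    (h2 : ∀ p : Pr I, Q g (E - U p.1.1 - U p.1.2))
    (x y : Tri I → (Fin k → N → ZMod 2) → M) (A : Pr I → (Fin k → N → ZMod 2) → M) (S0 : Set M)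
    (hx : ∀ T, In (app (Dq k (B + U T)) (x T)) S0) (hy : ∀ S, In (app (Dq k B) (y S)) S0)
    (hA : ∀ p, In (app (Dq k B) (A p)) S0) :
    Can S0 (mcost I g * (τ * Fintype.card (Fin k → N → ZMod 2)) +
      ovh I * Fintype.card (Fin k → N → ZMod 2))
      (fun T => (∀ S, In (app (Dq k (B + E)) (x S)) T) ∧
        (∀ S, In (app (Dq k (B + E - U S)) (y S + x S)) T) ∧
        (∀ p, In (app (Dq k (B + E)) (A p)) T)) := by
  set n : ℝ := ((Fintype.card (Fin k → N → ZMod 2) : ℕ) : ℝ) with hn
  let y1 := fun S => y S + (-1 : ℂ) • ∑ p, ss S p • A p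
  let A1 := fun p : Pr I => A p + (1 : ℂ) • x p.1.2
  let C := fun i : I => ∑ T, GG i T • x T
  let y2 := fun S => y1 S + (1 : ℂ) • ∑ i, RR S i • C i
  let y3 := fun S => y2 S + (1 : ℂ) • ∑ p, ss S p • A1 p
  · refine (fam (a := fun S => app (Dq k B) (y1 S)) fun S T hT =>
      lin2 _ _ _ A ((hy S).mono hT) fun p _ => (hA p).mono hT).seq' fun S1 s1 a1 => ?_
    refine (fam (a := fun p => app (Dq k (B + U p.1.2)) (A p)) fun p T hT =>
      frame_move hτ hF ((hU p.1.2).of_eq rfl (by abel)) ((hA p).mono (s1.trans hT))).seq'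
      fun S2 s2 a2 => ?_
    refine (fam (a := fun p => app (Dq k (B + U p.1.2)) (A1 p)) fun p T hT =>
      addc _ 1 (a := A p) (b := x p.1.2) ((a2 p).mono hT) ((hx p.1.2).mono ((s1.trans s2).trans hT))).seq' fun S3 s3 a3 => ?_
    refine (fam (a := fun S => app (Dq k (B + E)) (x S)) fun S T hT =>
      frame_move hτ hF ((h1 S).of_eq rfl (by abel))
        ((hx S).mono (((s1.trans s2).trans s3).trans hT))).seq' fun S4 s4 a4 => ?_
    refine (fam (a := fun i => app (Dq k (B + E)) (C i)) fun i T hT =>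
      lin1 _ _ x fun S _ => (a4 S).mono hT).seq' fun S5 s5 a5 => ?_
    refine (fam (a := fun i => app (Dq k B) (C i)) fun i T hT =>
      frame_move hτ hF (hE.neg.of_eq rfl (by abel)) ((a5 i).mono hT)).seq' fun S6 s6 a6 => ?_
    refine (fam (a := fun S => app (Dq k B) (y2 S)) fun S T hT =>
      lin2 _ _ _ C ((a1 S).mono (((((s2.trans s3).trans s4).trans s5).trans s6).trans hT))
        fun i _ => (a6 i).mono hT).seq' fun S7 s7 a7 => ?_
    refine (fam (a := fun S => app (Dq k (B + E - U S)) (y2 S)) fun S T hT =>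
      frame_move hτ hF ((h1 S).of_eq rfl (by abel)) ((a7 S).mono hT)).seq' fun S8 s8 a8 => ?_
    refine (fam (a := fun p => app (Dq k (B + E - U p.1.1)) (A1 p)) fun p T hT =>
      frame_move hτ hF ((h2 p).of_eq rfl (by abel))
        ((a3 p).mono (((((s4.trans s5).trans s6).trans s7).trans s8).trans hT))).seq'
        fun S9 s9 a9 => ?_
    refine (fam (a := fun S => app (Dq k (B + E - U S)) (y3 S)) fun S T hT =>
      lin2 _ _ _ A1 ((a8 S).mono (s9.trans hT))
        fun p hp => (ss_ne hp) ▸ (a9 p).mono hT).seq' fun S10 s10 a10 => ?_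
    refine (fam (a := fun p => app (Dq k (B + E)) (A1 p)) fun p T hT =>
      frame_move hτ hF ((hU p.1.1).of_eq rfl (by abel)) ((a9 p).mono (s10.trans hT))).seq'
      fun S11 s11 a11 => ?_
    have s411 : S4 ⊆ S11 := (((((s5.trans s6).trans s7).trans s8).trans s9).trans s10).trans s11
    refine (fam (a := fun p => app (Dq k (B + E)) (A1 p + (-1 : ℂ) • x p.1.2)) fun p T hT =>
      addc _ _ (b := x p.1.2) ((a11 p).mono hT) ((a4 p.1.2).mono (s411.trans hT))).mono
      (by rw [← hn]; unfold mcost ovh; push_cast; apply le_of_eq; ring)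
      fun S12 s12 _ a12 => ⟨fun S => (a4 S).mono (s411.trans s12), fun S => ?_, fun p => ?_⟩
    · have : y3 S = y S + x S := by
        rw [← ident x S]
        simp only [y3, y2, y1, A1, C, one_smul, neg_smul, smul_add, sum_add_distrib]
        abel
      rw [← this]
      exact (a10 S).mono (s11.trans s12)
    · have : A1 p + (-1 : ℂ) • x p.1.2 = A p := by simp [A1]
      rw [← this]; exact a12 p

set_option maxHeartbeats 400000 in
lemma motif_bwd {k : ℕ} {τ : ℝ} (hτ : 0 ≤ τ) (hF : Fast M k τ) {g : ℕ}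
    (B E : (N → ZMod 2) → ZMod 4) (U : Tri I → (N → ZMod 2) → ZMod 4)
    (hE : Q (g + 2) E) (hU : ∀ S, Q 1 (U S)) (h1 : ∀ S, Q (g + 1) (E - U S))
    (h2 : ∀ p : Pr I, Q g (E - U p.1.1 - U p.1.2))
    (x y : Tri I → (Fin k → N → ZMod 2) → M) (A : Pr I → (Fin k → N → ZMod 2) → M) (S0 : Set M)
    (hx : ∀ T, In (app (Dq k B) (x T)) S0) (hy : ∀ S, In (app (Dq k (B + U S)) (y S)) S0)
    (hA : ∀ p, In (app (Dq k B) (A p)) S0) :
    Can S0 (mcost I g * (τ * Fintype.card (Fin k → N → ZMod 2)) +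
      ovh I * Fintype.card (Fin k → N → ZMod 2))
      (fun T => (∀ S, In (app (Dq k (B + E - U S)) (x S)) T) ∧
        (∀ S, In (app (Dq k (B + E)) (y S - x S)) T) ∧
        (∀ p, In (app (Dq k (B + E)) (A p)) T)) := by
  set n : ℝ := ((Fintype.card (Fin k → N → ZMod 2) : ℕ) : ℝ) with hn
  let A1 := fun p : Pr I => A p + (1 : ℂ) • x p.1.2
  let C := fun i : I => ∑ T, GG i T • x T
  let y1 := fun S => y S + (-1 : ℂ) • ∑ p, ss S p • A1 p
  let y2 := fun S => y1 S + (-1 : ℂ) • ∑ i, RR S i • C i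
  let A2 := fun p : Pr I => A1 p + (-1 : ℂ) • x p.1.2
  let y3 := fun S => y2 S + (1 : ℂ) • ∑ p, ss S p • A2 p
  · refine (fam (a := fun p => app (Dq k B) (A1 p)) fun p T hT =>
      addc _ _ (b := x p.1.2) ((hA p).mono hT) ((hx p.1.2).mono hT)).seq' fun S1 s1 a1 => ?_
    refine (fam (a := fun i => app (Dq k B) (C i)) fun i T hT =>
      lin1 _ _ x fun S _ => (hx S).mono (s1.trans hT)).seq' fun S2 s2 a2 => ?_
    refine (fam (a := fun i => app (Dq k (B + E)) (C i)) fun i T hT =>
      frame_move hτ hF (hE.of_eq rfl (by abel)) ((a2 i).mono hT)).seq' fun S3 s3 a3 => ?_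
    refine (fam (a := fun p => app (Dq k (B + U p.1.1)) (A1 p)) fun p T hT =>
      frame_move hτ hF ((hU p.1.1).of_eq rfl (by abel))
        ((a1 p).mono ((s2.trans s3).trans hT))).seq' fun S4 s4 a4 => ?_
    refine (fam (a := fun S => app (Dq k (B + U S)) (y1 S)) fun S T hT =>
      lin2 _ _ _ A1 ((hy S).mono ((((s1.trans s2).trans s3).trans s4).trans hT))
        fun p hp => (ss_ne hp) ▸ (a4 p).mono hT).seq' fun S5 s5 a5 => ?_
    refine (fam (a := fun S => app (Dq k (B + E)) (y1 S)) fun S T hT =>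
      frame_move hτ hF ((h1 S).of_eq rfl (by abel)) ((a5 S).mono hT)).seq' fun S6 s6 a6 => ?_
    refine (fam (a := fun S => app (Dq k (B + E)) (y2 S)) fun S T hT =>
      lin2 _ _ _ C ((a6 S).mono hT)
        fun i _ => (a3 i).mono (((s4.trans s5).trans s6).trans hT)).seq' fun S7 s7 a7 => ?_
    refine (fam (a := fun p => app (Dq k (B + E - U p.1.2)) (A1 p)) fun p T hT =>
      frame_move hτ hF ((h2 p).of_eq rfl (by abel))
        ((a4 p).mono (((s5.trans s6).trans s7).trans hT))).seq' fun S8 s8 a8 => ?_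
    refine (fam (a := fun S => app (Dq k (B + E - U S)) (x S)) fun S T hT =>
      frame_move hτ hF ((h1 S).of_eq rfl (by abel)) ((hx S).mono
        ((((((((s1.trans s2).trans s3).trans s4).trans s5).trans s6).trans s7).trans s8).trans hT))).seq'
        fun S9 s9 a9 => ?_
    refine (fam (a := fun p => app (Dq k (B + E - U p.1.2)) (A2 p)) fun p T hT =>
      addc _ (-1) (a := A1 p) (b := x p.1.2) ((a8 p).mono (s9.trans hT)) ((a9 p.1.2).mono hT)).seq' fun S10 s10 a10 => ?_
    refine (fam (a := fun p => app (Dq k (B + E)) (A2 p)) fun p T hT =>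
      frame_move hτ hF ((hU p.1.2).of_eq rfl (by abel)) ((a10 p).mono hT)).seq'
      fun S11 s11 a11 => ?_
    refine (fam (a := fun S => app (Dq k (B + E)) (y3 S)) fun S T hT =>
      lin2 _ _ _ A2 ((a7 S).mono ((((s8.trans s9).trans s10).trans s11).trans hT))
        fun p _ => (a11 p).mono hT).mono
      (by rw [← hn]; unfold mcost ovh; push_cast; apply le_of_eq; ring)
      fun S12 s12 _ a12 => ⟨fun S => (a9 S).mono ((s10.trans s11).trans s12), fun S => ?_, fun p => ?_⟩
    · have : y3 S = y S - x S := by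
        rw [← ident x S]
        simp only [y3, y2, y1, A1, A2, C, one_smul, neg_smul, smul_add, sum_add_distrib, smul_neg,
          sum_neg_distrib]
        abel
      rw [← this]
      exact a12 S
    · have : A2 p = A p := by simp [A2, A1]
      rw [← this]; exact (a11 p).mono s12

end Vale.Agent.P344
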