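import Vale.Agent.P344.Motif

open Finset

namespace Vale.Agent.P344

set_option linter.unusedSectionVars false

variable {M : Type} [AddCommGroup M] [Module ℂ M]
variable {N : Type} [Fintype N] [DecidableEq N]
variable {I : Type} [Fintype I] [DecidableEq I]

def ev (i : I) : I → ZMod 2 := Pi.single i 1
def tv (S : Finset I) : I → ZMod 2 := ∑ i ∈ S, ev i
def EE (ψ : (I → ZMod 2) →+ (N → ZMod 2)) : (N → ZMod 2) → ZMod 4 := ∑ i, ell (ψ (ev i))

lemma tv_three {a b c : I} (hab : a ≠ b) (hac : a ≠ c) (hbc : b ≠ c) :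
    tv {a, b, c} = ev a + ev b + ev c := by
  unfold tv
  rw [sum_insert (by simp [hab, hac]), sum_insert (by simp [hbc]), sum_singleton, add_assoc]

lemma split_four {V : Type} [AddCommGroup V] (s : Finset I) (f : I → V) {a b c d : I}
    (ha : a ∈ s) (hb : b ∈ s) (hc : c ∈ s) (hd : d ∈ s) (hab : a ≠ b) (hac : a ≠ c) (hbc : b ≠ c)
    (had : a ≠ d) (hbd : b ≠ d) (hcd : c ≠ d) :
    ∑ i ∈ s, f i = ∑ i ∈ s \ {a, b, c, d}, f i + (f a + f b + f c + f d) ∧
      (s \ {a, b, c, d}).card + 4 = s.card := by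
  have hsub : ({a, b, c, d} : Finset I) ⊆ s := by
    intro x hx; simp only [mem_insert, mem_singleton] at hx
    rcases hx with rfl | rfl | rfl | rfl <;> assumption
  constructor
  · rw [← sum_sdiff hsub, sum_insert (by simp [hab, hac, had]), sum_insert (by simp [hbc, hbd]),
      sum_insert (by simp [hcd]), sum_singleton]
    abel
  · rw [← card_sdiff_add_card_eq_card hsub, card_insert_of_notMem (by simp [hab, hac, had]),
      card_insert_of_notMem (by simp [hbc, hbd]), card_insert_of_notMem (by simp [hcd]),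
      card_singleton]

lemma exists_notMem (s : Finset I) (h : s.card < Fintype.card I) : ∃ d, d ∉ s := by
  by_contra hc
  push Not at hc
  have : s = univ := eq_univ_iff_forall.2 hc
  rw [this, card_univ] at h
  exact lt_irrefl _ h

lemma key1 (hI : 8 ≤ Fintype.card I) (S : Tri I) :
    ∃ (J : Type) (s : Finset J) (z : J → I → ZMod 2), s.card + 1 = Fintype.card I ∧
      ∀ ψ : (I → ZMod 2) →+ (N → ZMod 2),
        Q 0 (EE ψ - ell (ψ (tv S.1)) - ∑ j ∈ s, ell (ψ (z j))) := by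
  obtain ⟨a, b, c, hab, hac, hbc, hS⟩ := card_eq_three.1 S.2
  obtain ⟨d, hd⟩ := exists_notMem S.1 (by rw [S.2]; omega)
  rw [hS] at hd
  simp only [mem_insert, mem_singleton, not_or] at hd
  obtain ⟨hda, hdb, hdc⟩ := hd
  refine ⟨I ⊕ Fin 3, (univ \ {a, b, c, d}).disjSum univ,
    Sum.elim ev ![ev a + ev b + ev d, ev a + ev c + ev d, ev b + ev c + ev d], ?_, fun ψ => ?_⟩
  · have := (split_four (V := ℤ) univ (fun _ => 0) (mem_univ a) (mem_univ b) (mem_univ c) (mem_univ d)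
      hab hac hbc (Ne.symm hda) (Ne.symm hdb) (Ne.symm hdc)).2
    rw [card_disjSum, card_univ, Fintype.card_fin, ← card_univ]; omega
  · have := (split_four univ (fun i => ell (ψ (ev i))) (mem_univ a) (mem_univ b) (mem_univ c)
      (mem_univ d) hab hac hbc (Ne.symm hda) (Ne.symm hdb) (Ne.symm hdc)).1
    refine (R4 (ψ (ev a)) (ψ (ev b)) (ψ (ev c)) (ψ (ev d))).of_eq rfl ?_
    rw [EE, this, sum_disjSum, hS, tv_three hab hac hbc, Fin.sum_univ_three]
    simp only [Sum.elim_inl, Sum.elim_inr, Matrix.cons_val_zero, Matrix.cons_val_one,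
      Matrix.cons_val, map_add]
    abel

lemma key1' {g : ℕ} (hI : 8 ≤ Fintype.card I) (hg : Fintype.card I = g + 2) (S : Tri I)
    (ψ : (I → ZMod 2) →+ (N → ZMod 2)) : Q (g + 1) (EE ψ - ell (ψ (tv S.1))) := by
  obtain ⟨J, s, z, hs, h⟩ := key1 (N := N) hI S
  exact ((h ψ).add (Q.sum_ell s fun j => ψ (z j))).of_eq (by omega) (by abel)

lemma keyE {g : ℕ} (hg : Fintype.card I = g + 2) (ψ : (I → ZMod 2) →+ (N → ZMod 2)) :
    Q (g + 2) (EE ψ) := (Q.sum_ell univ fun i => ψ (ev i)).of_eq (by simp [hg]) rfl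

lemma key2 {g : ℕ} (hI : 8 ≤ Fintype.card I) (hg : Fintype.card I = g + 2) (p : Pr I)
    (ψ : (I → ZMod 2) →+ (N → ZMod 2)) :
    Q g (EE ψ - ell (ψ (tv p.1.1.1)) - ell (ψ (tv p.1.2.1))) := by
  obtain ⟨⟨S, T⟩, hp⟩ := p
  simp only at hp ⊢
  have h3 : (S.1 ∩ T.1).card ≤ 3 := (card_le_card inter_subset_left).trans S.2.le
  have h02 : (S.1 ∩ T.1).card = 0 ∨ (S.1 ∩ T.1).card = 2 := by
    obtain ⟨c, hc⟩ := hp; omega
  rcases h02 with h | h
  · obtain ⟨a, b, c, hab, hac, hbc, hS⟩ := card_eq_three.1 S.2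
    obtain ⟨a', b', c', hab', hac', hbc', hT⟩ := card_eq_three.1 T.2
    have hdis : ∀ x, x ∈ S.1 → x ∉ T.1 := by
      intro x h1 h2
      have : x ∈ S.1 ∩ T.1 := mem_inter.2 ⟨h1, h2⟩
      rw [card_eq_zero.1 h] at this; simp at this
    obtain ⟨d, hd⟩ := exists_notMem (S.1 ∪ T.1) (by
      have := card_union_le S.1 T.1; rw [S.2, T.2] at this; omega)
    obtain ⟨d', hd'⟩ := exists_notMem (insert d (S.1 ∪ T.1)) (by
      have := card_union_le S.1 T.1; rw [S.2, T.2] at this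
      have := card_insert_le d (S.1 ∪ T.1); omega)
    have n1 := hdis a (by simp [hS])
    have n2 := hdis b (by simp [hS])
    have n3 := hdis c (by simp [hS])
    rw [hT] at n1 n2 n3
    rw [hS, hT] at hd hd'
    simp only [mem_insert, mem_singleton, mem_union, not_or] at hd hd' n1 n2 n3
    obtain ⟨e1, c1⟩ := split_four univ (fun i => ell (ψ (ev i))) (mem_univ a) (mem_univ b) (mem_univ c)
      (mem_univ d) hab hac hbc (by tauto) (by tauto) (by tauto)
    obtain ⟨e2, c2⟩ := split_four (univ \ {a, b, c, d}) (fun i => ell (ψ (ev i))) (a := a') (b := b')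
      (c := c') (d := d') (by simp; tauto) (by simp; tauto) (by simp; tauto) (by simp; tauto)
      hab' hac' hbc' (by tauto) (by tauto) (by tauto)
    have q1 := R4 (ψ (ev a)) (ψ (ev b)) (ψ (ev c)) (ψ (ev d))
    have q2 := R4 (ψ (ev a')) (ψ (ev b')) (ψ (ev c')) (ψ (ev d'))
    have q3 := Q.sum_ell ((univ \ {a, b, c, d}) \ {a', b', c', d'}) fun i => ψ (ev i)
    refine ((((((((q1.add q2).add q3).add (Q.ell (ψ (ev a) + ψ (ev b) + ψ (ev d)))).add
      (Q.ell (ψ (ev a) + ψ (ev c) + ψ (ev d)))).add (Q.ell (ψ (ev b) + ψ (ev c) + ψ (ev d)))).add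
      (Q.ell (ψ (ev a') + ψ (ev b') + ψ (ev d')))).add (Q.ell (ψ (ev a') + ψ (ev c') + ψ (ev d')))).add
      (Q.ell (ψ (ev b') + ψ (ev c') + ψ (ev d')))).of_eq ?_ ?_
    · rw [card_univ] at c1; omega
    · rw [EE, e1, e2, hS, hT, tv_three hab hac hbc, tv_three hab' hac' hbc']
      simp only [map_add]
      abel
  · obtain ⟨a, b, hab, hST⟩ := card_eq_two.1 h
    have c1 : (S.1 \ T.1).card = 1 := by
      have := card_sdiff_add_card_inter S.1 T.1; rw [S.2, h] at this; omega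
    have c2 : (T.1 \ S.1).card = 1 := by
      have := card_sdiff_add_card_inter T.1 S.1; rw [T.2, inter_comm, h] at this; omega
    obtain ⟨c, hc⟩ := card_eq_one.1 c1
    obtain ⟨d, hd⟩ := card_eq_one.1 c2
    have ma : a ∈ S.1 ∩ T.1 := by simp [hST]
    have mb : b ∈ S.1 ∩ T.1 := by simp [hST]
    have mc : c ∈ S.1 \ T.1 := by simp [hc]
    have md : d ∈ T.1 \ S.1 := by simp [hd]
    simp only [mem_inter, mem_sdiff] at ma mb mc md
    have hac : a ≠ c := fun h => mc.2 (h ▸ ma.2)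
    have hbc : b ≠ c := fun h => mc.2 (h ▸ mb.2)
    have had : a ≠ d := fun h => md.2 (h ▸ ma.1)
    have hbd : b ≠ d := fun h => md.2 (h ▸ mb.1)
    have hcd : c ≠ d := fun h => md.2 (h ▸ mc.1)
    have hS : S.1 = {a, b, c} := by
      rw [← sdiff_union_inter S.1 T.1, hc, hST]; ext x; simp; tauto
    have hT : T.1 = {a, b, d} := by
      rw [← sdiff_union_inter T.1 S.1, hd, inter_comm, hST]; ext x; simp; tauto
    obtain ⟨e1, c1⟩ := split_four univ (fun i => ell (ψ (ev i))) (mem_univ a) (mem_univ b) (mem_univ c)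
      (mem_univ d) hab hac hbc had hbd hcd
    have q1 := R4 (ψ (ev a)) (ψ (ev b)) (ψ (ev c)) (ψ (ev d))
    have q3 := Q.sum_ell (univ \ {a, b, c, d}) fun i => ψ (ev i)
    refine (((q1.add q3).add (Q.ell (ψ (ev a) + ψ (ev c) + ψ (ev d)))).add
      (Q.ell (ψ (ev b) + ψ (ev c) + ψ (ev d)))).of_eq ?_ ?_
    · rw [card_univ] at c1; omega
    · rw [EE, e1, hS, hT, tv_three hab hac hbc, tv_three hab had hbd]
      simp only [map_add]
      abel

def tp (z w : I → ZMod 2) : I × I → ZMod 2 := fun p => z p.1 * w p.2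

def psiL (w : I → ZMod 2) : (I → ZMod 2) →+ (I × I → ZMod 2) where
  toFun z := tp z w
  map_zero' := by funext p; simp [tp]
  map_add' a b := by funext p; simp [tp, add_mul]

def psiR (z : I → ZMod 2) : (I → ZMod 2) →+ (I × I → ZMod 2) where
  toFun w := tp z w
  map_zero' := by funext p; simp [tp]
  map_add' a b := by funext p; simp [tp, mul_add]

lemma psiL_apply (z w : I → ZMod 2) : psiL w z = tp z w := rfl
lemma psiR_apply (z w : I → ZMod 2) : psiR z w = tp z w := rfl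

lemma wt_eq : wt (N := I × I) = ∑ i, ∑ j, ell (tp (ev i) (ev j)) := by
  unfold wt
  rw [Fintype.sum_prod_type]
  refine sum_congr rfl fun i _ => sum_congr rfl fun j _ => ?_
  congr 1
  funext ⟨a, b⟩
  simp only [tp, ev, Pi.single_apply, Prod.mk.injEq]
  by_cases h1 : a = i <;> by_cases h2 : b = j <;> simp [h1, h2]

lemma tr1 {g : ℕ} (hI : 8 ≤ Fintype.card I) (hg : Fintype.card I = g + 2) (S : Tri I) :
    Q ((g + 2) * (g + 1)) (wt - EE (psiL (tv S.1))) := by
  refine (Q.sum univ fun i _ => key1' hI hg S (psiR (ev i))).of_eq (by simp [hg]) ?_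
  rw [wt_eq, sum_sub_distrib]; rfl

lemma tr2 {g : ℕ} (hI : 8 ≤ Fintype.card I) (hg : Fintype.card I = g + 2) (S : Tri I) :
    Q ((g + 2) * (g + 1)) (wt - EE (psiR (tv S.1))) := by
  refine (Q.sum univ fun i _ => key1' hI hg S (psiL (ev i))).of_eq (by simp [hg]) ?_
  rw [wt_eq, sum_sub_distrib, sum_comm]; rfl

lemma tr3 {g : ℕ} (hI : 8 ≤ Fintype.card I) (hg : Fintype.card I = g + 2) (S T : Tri I) :
    Q ((g + 1) * (g + 1)) (wt - EE (psiL (tv T.1)) - EE (psiR (tv S.1)) + ell (tp (tv S.1) (tv T.1))) := by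
  obtain ⟨J, s, z, hs, h⟩ := key1 (N := I × I) hI S
  have q1 := Q.sum univ fun j _ => h (psiL (ev j))
  have q2 := (h (psiL (tv T.1))).neg
  have q3 := Q.sum s fun r _ => key1' hI hg T (psiR (z r))
  refine ((q1.add q2).add q3).of_eq (by rw [show s.card = g + 1 by omega]; simp) ?_
  rw [wt_eq, sum_comm]
  simp only [EE, sum_sub_distrib, psiL_apply, psiR_apply]
  rw [sum_comm (s := univ) (t := s)]
  abel

lemma wt_Q : Q (Fintype.card N) (wt (N := N)) := Q.sum_ell univ _

noncomputable def ncost (I : Type) [Fintype I] [DecidableEq I] (g : ℕ) : ℝ :=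
  2 * Fintype.card (Tri I) * mcost I g + 2 * Fintype.card (Tri I) ^ 2 * (g + 1) ^ 2 +
    2 * Fintype.card (Tri I) * Fintype.card (Pr I) * ((g + 2) * (g + 1)) + Fintype.card (Tri I) ^ 2

noncomputable def novh (I : Type) [Fintype I] [DecidableEq I] : ℝ :=
  2 * Fintype.card (Tri I) * ovh I + 3 * Fintype.card (Tri I) ^ 2

attribute [local irreducible] app Dq

lemma In.neg_app {ι : Type} [Fintype ι] (A : Matrix ι ι ℂ) {S : Set M} {a : ι → M}
    (ha : In (app A a) S) : Can S (Fintype.card ι) (In (app A ((-1 : ℂ) • a))) := by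
  rw [app_smul]
  exact Can.arr_smul (fun _ => -1) _ ha

set_option maxHeartbeats 400000 in
lemma network {k : ℕ} {τ : ℝ} (hτ : 0 ≤ τ) (hF : Fast M k τ) {g : ℕ}
    (hI : 8 ≤ Fintype.card I) (hg : Fintype.card I = g + 2)
    (x y : Tri I × Tri I → (Fin k → I × I → ZMod 2) → M)
    (A B : Tri I × Pr I → (Fin k → I × I → ZMod 2) → M) (S0 : Set M)
    (hx : ∀ u, In (x u) S0) (hy : ∀ u, In (y u) S0) (hA : ∀ u, In (A u) S0) (hB : ∀ u, In (B u) S0) :
    Can S0 (ncost I g * (τ * Fintype.card (Fin k → I × I → ZMod 2)) +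
      novh I * Fintype.card (Fin k → I × I → ZMod 2))
      (fun T => (∀ u, In (app (Dq k wt) (x u)) T) ∧ (∀ u, In (app (Dq k wt) (y u)) T) ∧
        (∀ u, In (app (Dq k wt) (A u)) T) ∧ (∀ u, In (app (Dq k wt) (B u)) T)) := by
  set n : ℝ := ((Fintype.card (Fin k → I × I → ZMod 2) : ℕ) : ℝ) with hn
  let U : Tri I × Tri I → (I × I → ZMod 2) → ZMod 4 := fun u => ell (tp (tv u.1.1) (tv u.2.1))
  let E1 : Tri I → (I × I → ZMod 2) → ZMod 4 := fun T => EE (psiL (tv T.1))
  let E2 : Tri I → (I × I → ZMod 2) → ZMod 4 := fun S => EE (psiR (tv S.1))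
  let xl : Tri I × Tri I → (Fin k → I × I → ZMod 2) → M := fun u => app (Dq k (-U u)) (x u)
  have hxl : ∀ u q, app (Dq k (q + U u)) (xl u) = app (Dq k q) (x u) := by
    intro u q
    simp only [xl]
    rw [← app_mul, ← Dq_add, add_neg_cancel_right]
  refine (Can.forall (J := Tri I) (P := fun T2 T => (∀ S, In (app (Dq k (0 + E1 T2)) (xl (S, T2))) T) ∧
      (∀ S, In (app (Dq k (0 + E1 T2 - U (S, T2))) (y (S, T2) + xl (S, T2))) T) ∧
      (∀ p, In (app (Dq k (0 + E1 T2)) (A (T2, p))) T))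
    (fun j T T' h h' => ⟨fun S => (h'.1 S).mono h, fun S => (h'.2.1 S).mono h,
      fun S => (h'.2.2 S).mono h⟩)
    fun T2 T hT => motif_fwd hτ hF 0 (E1 T2) (fun S => U (S, T2)) (keyE hg _) (fun S => Q.ell _)
      (fun S => key1' hI hg S (psiL (tv T2.1))) (fun p => key2 hI hg p (psiL (tv T2.1)))
      (fun S => xl (S, T2)) (fun S => y (S, T2)) (fun p => A (T2, p)) T
      (fun S => by rw [hxl, app_Dq_zero]; exact (hx _).mono hT)
      (fun S => by rw [app_Dq_zero]; exact (hy _).mono hT)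
      (fun S => by rw [app_Dq_zero]; exact (hA _).mono hT)).seq' fun S1 s1 a1 => ?_
  refine (fam (a := fun u : Tri I × Tri I => app (Dq k (wt - E2 u.1 + U u)) (xl u)) fun u T hT =>
    frame_move hτ hF ((tr3 hI hg u.1 u.2).of_eq rfl (by simp only [U, E1, E2]; abel))
      (((a1 u.2).1 u.1).mono hT)).seq' fun S2 s2 a2 => ?_
  refine (fam (a := fun u : Tri I × Tri I => app (Dq k (wt - E2 u.1)) (y u + xl u)) fun u T hT =>
    frame_move hτ hF ((tr3 hI hg u.1 u.2).of_eq rfl (by simp only [U, E1, E2]; abel))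
      (((a1 u.2).2.1 u.1).mono (s2.trans hT))).seq' fun S3 s3 a3 => ?_
  refine (fam (a := fun u : Tri I × Pr I => app (Dq k wt) (A u)) fun u T hT =>
    frame_move hτ hF ((tr1 hI hg u.1).of_eq rfl (by simp only [E1]; abel))
      (((a1 u.1).2.2 u.2).mono ((s2.trans s3).trans hT))).seq' fun S4 s4 a4 => ?_
  refine (fam (a := fun u : Tri I × Pr I => app (Dq k (wt - E2 u.1)) (B u)) fun u T hT =>
    frame_move hτ hF (q := 0) ((tr2 hI hg u.1).of_eq rfl (by simp only [E2]; abel))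
      (by rw [app_Dq_zero]; exact (hB u).mono ((((s1.trans s2).trans s3).trans s4).trans hT))).seq'
      fun S5 s5 a5 => ?_
  refine (Can.forall (J := Tri I) (P := fun S1 T =>
      (∀ S, In (app (Dq k (wt - E2 S1 + E2 S1 - U (S1, S))) (y (S1, S) + xl (S1, S))) T) ∧
      (∀ S, In (app (Dq k (wt - E2 S1 + E2 S1)) (xl (S1, S) - (y (S1, S) + xl (S1, S)))) T) ∧
      (∀ p, In (app (Dq k (wt - E2 S1 + E2 S1)) (B (S1, p))) T))
    (fun j T T' h h' => ⟨fun S => (h'.1 S).mono h, fun S => (h'.2.1 S).mono h,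
      fun S => (h'.2.2 S).mono h⟩)
    fun S1 T hT => motif_bwd hτ hF (wt - E2 S1) (E2 S1) (fun S => U (S1, S)) (keyE hg _)
      (fun S => Q.ell _)
      (fun S => key1' hI hg S (psiR (tv S1.1))) (fun p => key2 hI hg p (psiR (tv S1.1)))
      (fun S => y (S1, S) + xl (S1, S)) (fun S => xl (S1, S)) (fun p => B (S1, p)) T
      (fun S => (a3 (S1, S)).mono ((s4.trans s5).trans hT))
      (fun S => (a2 (S1, S)).mono (((s3.trans s4).trans s5).trans hT))
      (fun p => (a5 (S1, p)).mono hT)).seq' fun S6 s6 a6 => ?_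
  simp only [sub_add_cancel] at a6
  refine (fam (a := fun u : Tri I × Tri I => app (Dq k (wt - U u)) (xl u - (y u + xl u))) fun u T hT =>
    frame_move hτ hF ((Q.ell (tp (tv u.1.1) (tv u.2.1))).neg.of_eq rfl (by simp only [U]; abel))
      (((a6 u.1).2.1 u.2).mono hT)).seq' fun S7 s7 a7 => ?_
  refine (fam (a := fun u : Tri I × Tri I =>
      app (Dq k (wt - U u)) ((y u + xl u) + (1 : ℂ) • (xl u - (y u + xl u)))) fun u T hT =>
    addc _ 1 (a := y u + xl u) (b := xl u - (y u + xl u)) (((a6 u.1).1 u.2).mono (s7.trans hT))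
      ((a7 u).mono hT)).seq' fun S8 s8 a8 => ?_
  have e8 : ∀ u, (y u + xl u) + (1 : ℂ) • (xl u - (y u + xl u)) = xl u := fun u => by simp
  simp only [e8] at a8
  refine (fam (a := fun u : Tri I × Tri I => app (Dq k (wt + U u)) (xl u)) fun u T hT =>
    frame_move hτ hF ((Q.zero (tp (tv u.1.1) (tv u.2.1))).of_eq rfl (by simp only [U]; abel))
      ((a8 u).mono hT)).seq' fun S9 s9 a9 => ?_
  refine (fam (a := fun u : Tri I × Tri I => app (Dq k wt) ((-1 : ℂ) • (xl u - (y u + xl u))))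
    fun u T hT => In.neg_app _ (((a6 u.1).2.1 u.2).mono (((s7.trans s8).trans s9).trans hT))).mono
    ?_ fun S10 s10 _ a10 => ⟨fun u => ?_, fun u => ?_, fun u => ?_, fun u => ?_⟩
  · rw [← hn]; unfold ncost novh; simp only [Fintype.card_prod]; push_cast; apply le_of_eq; ring
  · rw [← hxl]; exact (a9 u).mono s10
  · have := a10 u
    simpa using this
  · exact (a4 u).mono (((((s5.trans s6).trans s7).trans s8).trans s9).trans s10)
  · exact ((a6 u.1).2.2 u.2).mono (((s7.trans s8).trans s9).trans s10)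

end Vale.Agent.P344
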