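import Vale.Agent.P344.Comp

open Finset

namespace Vale.Agent.P344

set_option linter.unusedSectionVars false

open Classical

variable {M : Type} [AddCommGroup M] [Module ℂ M]

noncomputable def tens {J : Type} [Fintype J] {ι κ : J → Type} (A : ∀ j, Matrix (ι j) (κ j) ℂ) :
    Matrix (∀ j, ι j) (∀ j, κ j) ℂ := fun g g' => ∏ j, A j (g j) (g' j)

lemma tens_mul {J : Type} [Fintype J] [DecidableEq J] {ι : J → Type} [∀ j, Fintype (ι j)]
    (A B : ∀ j, Matrix (ι j) (ι j) ℂ) : tens (fun j => A j * B j) = tens A * tens B := by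
  ext g g'
  simp only [tens, Matrix.mul_apply]
  rw [Finset.prod_univ_sum, Fintype.piFinset_univ]
  exact sum_congr rfl fun h _ => prod_mul_distrib

lemma tens_one {J : Type} [Fintype J] {ι : J → Type} :
    tens (fun j => (1 : Matrix (ι j) (ι j) ℂ)) = 1 := by
  ext g g'
  simp only [tens, Matrix.one_apply]
  rw [Finset.prod_ite_zero]
  simp [funext_iff]

noncomputable def ca : ℂ := (1 + Complex.I) / 2
noncomputable def cb : ℂ := (1 - Complex.I) / 2
lemma ca_add_cb : ca + cb = 1 := by unfold ca cb; ring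

noncomputable def Cl {ι : Type} (σ : ι → ι) : Matrix ι ι ℂ :=
  fun u v => ca * (if v = u then 1 else 0) + cb * (if v = σ u then 1 else 0)

noncomputable def Mon {ι κ : Type} (d : ι → ℂ) (π : ι → κ) : Matrix ι κ ℂ :=
  fun u v => if v = π u then d u else 0

lemma app_Mon {ι κ : Type} [Fintype κ] (d : ι → ℂ) (π : ι → κ) (x : κ → M) :
    app (Mon d π) x = fun i => d i • x (π i) := by
  funext i
  simp [app, Mon]

lemma app_Cl {ι : Type} [Fintype ι] (σ : ι → ι) (x : ι → M) :
    app (Cl σ) x = fun i => ca • x i + cb • x (σ i) := by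
  funext i
  simp [app, Cl, add_smul, sum_add_distrib]

lemma Cl_id {ι : Type} : Cl (fun i : ι => i) = 1 := by
  ext u v
  simp only [Cl, Matrix.one_apply, ← add_mul, ca_add_cb, one_mul, eq_comm]

lemma Mon_id {ι : Type} : Mon (fun _ : ι => 1) (fun i => i) = 1 := by
  ext u v
  simp only [Mon, Matrix.one_apply, eq_comm]

lemma tens_Mon {J : Type} [Fintype J] {ι κ : J → Type} (d : ∀ j, ι j → ℂ) (π : ∀ j, ι j → κ j) :
    tens (fun j => Mon (d j) (π j)) = Mon (fun g => ∏ j, d j (g j)) (fun g j => π j (g j)) := by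
  ext g g'
  simp only [tens, Mon]
  rw [Finset.prod_ite_zero]
  simp [funext_iff]

lemma cost_Mon {ι κ : Type} [Fintype ι] [Fintype κ] (d : ι → ℂ) (π : ι → κ) :
    Cost M (Mon d π) (Fintype.card ι) := by
  intro x S hx
  rw [app_Mon]
  exact Can.arr_smul d (fun i => x (π i)) fun i => hx _

lemma cost_perm {ι κ : Type} [Fintype κ] (π : ι → κ) :
    Cost M (Mon (fun _ => 1) π) 0 := by
  intro x S hx
  rw [app_Mon]
  exact Can.zero fun T hT _ i => by simpa using hT (hx _)

lemma cost_Cl {ι : Type} [Fintype ι] (σ : ι → ι) : Cost M (Cl σ) (Fintype.card ι * 3) := by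
  intro x S hx
  rw [app_Cl]
  refine Can.forall (P := fun i T => ca • x i + cb • x (σ i) ∈ T) (fun i T U hTU h => hTU h)
    fun i T hT => ?_
  refine ((Can.smul (hT (hx i)) ca).seq (d := 1 + 1) fun U hU h1 => ?_).cost (by norm_num)
  exact (Can.smul (hU (hT (hx (σ i)))) cb).seq fun V hV h2 => Can.add (hV h1) h2

noncomputable def Cbit : Matrix (ZMod 2) (ZMod 2) ℂ := Cl (fun b => b + 1)

noncomputable def Cpow (J : Type) [Fintype J] : Matrix (J → ZMod 2) (J → ZMod 2) ℂ :=
  tens (fun _ : J => Cbit)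

variable (M) in
def Fast (l : ℕ) (τ : ℝ) : Prop :=
  ∀ (J : Type) [Fintype J] [DecidableEq J], Fintype.card J ≤ l → Cost M (Cpow J) (τ * 2 ^ Fintype.card J)

lemma exists_rep {ι : Type} [Fintype ι] (σ : ι → ι) (hσ : ∀ u, σ (σ u) = u) :
    ∃ ρ : ι → ι, (∀ u, ρ (σ u) = ρ u) ∧ ∀ u, ρ u = u ∨ ρ u = σ u := by
  let e := Fintype.equivFin ι
  refine ⟨fun u => if e u ≤ e (σ u) then u else σ u, fun u => ?_, fun u => ?_⟩
  · simp only [hσ]
    split_ifs with h1 h2 h2
    · exact e.injective (le_antisymm h1 h2)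
    · rfl
    · rfl
    · exact absurd (le_of_not_ge h1) h2
  · beta_reduce
    split_ifs
    · exact Or.inl rfl
    · exact Or.inr rfl

lemma zmod2 (b : ZMod 2) : b = 0 ∨ b = 1 := by revert b; decide

set_option maxHeartbeats 400000 in
lemma cost_tens_Cl {l : ℕ} {τ : ℝ} (hτ : 0 ≤ τ) (hF : Fast M l τ) {J : Type} [Fintype J]
    [DecidableEq J]
    (hJ : Fintype.card J ≤ l) {ι : J → Type} [∀ j, Fintype (ι j)] (σ : ∀ j, ι j → ι j)
    (hσ : ∀ j u, σ j (σ j u) = u) :
    Cost M (tens fun j => Cl (σ j)) (τ * Fintype.card (∀ j, ι j)) := by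
  intro x S hx
  choose ρ hρ1 hρ2 using fun j => exists_rep (σ j) (hσ j)
  let R : Finset (∀ j, ι j) := univ.filter fun r => ∀ j, ρ j (r j) = r j
  let emb : (r : ∀ j, ι j) → ({j // σ j (r j) ≠ r j} → ZMod 2) → ∀ j, ι j := fun r η j =>
    if h : σ j (r j) ≠ r j then (if η ⟨j, h⟩ = 0 then r j else σ j (r j)) else r j
  have emb_inj : ∀ r, Function.Injective (emb r) := by
    intro r η η' h
    funext ⟨j, hj⟩
    have := congrFun h j
    simp only [emb, dif_pos hj] at this
    rcases zmod2 (η ⟨j, hj⟩) with h1 | h1 <;> rcases zmod2 (η' ⟨j, hj⟩) with h2 | h2 <;>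
      simp [h1, h2] at this ⊢
    · exact hj this.symm
    · exact hj this
  have emb_rho : ∀ r ∈ R, ∀ η j, ρ j (emb r η j) = r j := by
    intro r hr η j
    have := (mem_filter.1 hr).2 j
    simp only [emb]
    split_ifs
    · exact this
    · rw [hρ1, this]
    · exact this
  have key : ∀ r η, app (tens fun j => Cl (σ j)) x (emb r η) =
      app (Cpow {j // σ j (r j) ≠ r j}) (fun η' => x (emb r η')) η := by
    intro r η
    symm
    unfold app
    apply Finset.sum_of_injOn (emb r) (emb_inj r).injOn (fun _ _ => mem_univ _)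
    · intro g _ hg
      have : ∃ j, g j ≠ r j ∧ g j ≠ σ j (r j) := by
        by_contra hc
        push Not at hc
        apply hg
        refine ⟨fun j => if g j.1 = r j.1 then 0 else 1, by simp, ?_⟩
        funext j
        simp only [emb]
        split_ifs with h1 h2 h3 h3
        · exact h2.symm
        · simp at h3
        · simp at h3
        · exact (hc j h2).symm
        · by_contra h4
          rw [not_not] at h1
          exact h4 (by rw [hc j (Ne.symm h4), h1])
      obtain ⟨j, h1, h2⟩ := this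
      have : tens (fun j => Cl (σ j)) (emb r η) g = 0 := by
        apply prod_eq_zero (mem_univ j)
        simp only [emb, Cl]
        split_ifs <;> simp_all
      rw [this, zero_smul]
    · intro η' _
      congr 1
      simp only [Cpow, tens]
      rw [← Fintype.prod_subtype_mul_prod_subtype (fun j => σ j (r j) ≠ r j)]
      have e1 : ∏ j : {j // ¬ σ j (r j) ≠ r j}, Cl (σ j) (emb r η j) (emb r η' j) = 1 := by
        apply prod_eq_one
        rintro ⟨j, hj⟩ _
        simp only [emb, dif_neg hj, Cl]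
        rw [not_not] at hj
        simp [hj, ca_add_cb]
      rw [e1, mul_one]
      apply prod_congr rfl
      rintro ⟨j, hj⟩ _
      simp only [emb, dif_pos hj, Cl, Cbit]
      have h11 : (1 : ZMod 2) + 1 = 0 := by decide
      rcases zmod2 (η ⟨j, hj⟩) with h1 | h1 <;> rcases zmod2 (η' ⟨j, hj⟩) with h2 | h2 <;>
        simp [h1, h2, hσ, hj, hj.symm, h11]
  have step := Can.family R (S := S) (c := fun r => τ * 2 ^ Fintype.card {j // σ j (r j) ≠ r j})
    (P := fun r T => ∀ η, app (tens fun j => Cl (σ j)) x (emb r η) ∈ T)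
    (fun r T U hTU h η => hTU (h η)) (by
      intro r _ T hT
      refine (hF {j // σ j (r j) ≠ r j} ((Fintype.card_subtype_le _).trans hJ)
        (fun η' => x (emb r η')) T (fun η' => hT (hx _))).mono le_rfl ?_
      intro U _ _ h η
      rw [key]; exact h η)
  refine step.mono ?_ ?_
  · rw [← mul_sum]
    apply mul_le_mul_of_nonneg_left _ hτ
    have : ∑ r ∈ R, 2 ^ Fintype.card {j // σ j (r j) ≠ r j} ≤ Fintype.card (∀ j, ι j) := by
      have e : ∑ r ∈ R, 2 ^ Fintype.card {j // σ j (r j) ≠ r j} =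
          (R.sigma fun r => (univ : Finset ({j // σ j (r j) ≠ r j} → ZMod 2))).card := by
        rw [card_sigma]; simp
      rw [e, ← card_univ]
      apply card_le_card_of_injOn (fun p => emb p.1 p.2) (fun _ _ => by simp)
      rintro ⟨r, η⟩ h1 ⟨r', η'⟩ h2 h
      simp only [coe_sigma, Set.mem_sigma_iff, mem_coe] at h1 h2
      have : r = r' := by
        funext j
        rw [← emb_rho r h1.1 η j, ← emb_rho r' h2.1 η' j]
        exact congrArg (ρ j) (congrFun h j)
      subst this
      have h' : η = η' := emb_inj r h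
      rw [h']
    exact_mod_cast this
  · intro T _ _ h g
    let r : ∀ j, ι j := fun j => ρ j (g j)
    have hr : r ∈ R := by
      simp only [R, mem_filter, mem_univ, true_and, r]
      intro j
      rcases hρ2 j (g j) with h | h
      · rw [h, h]
      · conv_lhs => rw [h, hρ1]
    have : g = emb r (fun j => if g j.1 = r j.1 then 0 else 1) := by
      funext j
      have h3 : g j = r j ∨ g j = σ j (r j) := by
        rcases hρ2 j (g j) with h | h
        · exact Or.inl h.symm
        · right; simp only [r]; rw [h, hσ]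
      simp only [emb]
      split_ifs with h1 h2 h4 h4
      · exact h2
      · simp at h4
      · simp at h4
      · exact h3.resolve_left h2
      · rw [not_not] at h1
        rcases h3 with h3 | h3
        · exact h3
        · rw [h3, h1]
    have h5 := h r hr (fun j => if g j.1 = r j.1 then 0 else 1)
    rw [← this] at h5
    exact h5

/-- products of `T` layers, each a butterfly layer followed by a monomial map -/
inductive Lay {ι : Type} [Fintype ι] : ℕ → Matrix ι ι ℂ → Prop
  | zero : Lay 0 1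
  | succ {T : ℕ} {A : Matrix ι ι ℂ} (d : ι → ℂ) (π : ι → ι) (σ : ι → ι) (hσ : ∀ u, σ (σ u) = u)
      (h : Lay T A) : Lay (T + 1) (Mon d π * (Cl σ * A))

lemma Lay.inv_zero {ι : Type} [Fintype ι] {A : Matrix ι ι ℂ} (h : Lay 0 A) : A = 1 := by
  cases h; rfl

lemma Lay.inv_succ {ι : Type} [Fintype ι] {T : ℕ} {A : Matrix ι ι ℂ} (h : Lay (T + 1) A) :
    ∃ (d : ι → ℂ) (π : ι → ι) (σ : ι → ι) (B : Matrix ι ι ℂ), (∀ u, σ (σ u) = u) ∧ Lay T B ∧
      A = Mon d π * (Cl σ * B) := by
  cases h with
  | succ d π σ hσ h => exact ⟨d, π, σ, _, hσ, h, rfl⟩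

lemma cost_tens_Lay {l : ℕ} {τ : ℝ} (hτ : 0 ≤ τ) (hF : Fast M l τ) {J : Type} [Fintype J]
    [DecidableEq J]
    (hJ : Fintype.card J ≤ l) {ι : J → Type} [∀ j, Fintype (ι j)] (T : ℕ) :
    ∀ (A : ∀ j, Matrix (ι j) (ι j) ℂ), (∀ j, Lay T (A j)) →
      Cost M (tens A) (T * ((τ + 1) * Fintype.card (∀ j, ι j))) := by
  induction T with
  | zero =>
    intro A hA
    have : A = fun j => 1 := funext fun j => (hA j).inv_zero
    rw [this, tens_one]
    simpa using Cost.one
  | succ T ih =>
    intro A hA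
    choose d π σ B hσ hB hE using fun j => (hA j).inv_succ
    have : A = fun j => Mon (d j) (π j) * (Cl (σ j) * B j) := funext hE
    rw [this, tens_mul, tens_mul, tens_Mon]
    refine ((cost_Mon _ _).mul ((cost_tens_Cl hτ hF hJ σ hσ).mul (ih B hB))).mono (le_of_eq ?_)
    push_cast; ring

end Vale.Agent.P344
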